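import Vale.Agent.N352.H.Bc

/-!
# N352, block H: the Borchers class as a theory
-/

set_option linter.all false

open Filter Topology

namespace Vale.Agent.N352.H

open P352.GF
open Dh (RelLoc)

noncomputable section

variable {H : Type*} [NormedAddCommGroup H] [InnerProductSpace ℂ H] [CompleteSpace H]
  {K : Dh.Frame H} {S P : Dh.Theory K} {A B C C' : Fld H} {f g : Fn} {v w : H}
  {U t : Ix → Ix → Fld H}

theorem ext_C (S : Dh.Theory K) {x y : H} (h : ∀ v, Dh.Cyc S v → inner ℂ v x = inner ℂ v y) :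
    x = y :=
  ext_inner_left ℂ fun z => congrFun ((continuous_id.inner continuous_const).ext_on
    (S.cyclic (cyH S) ⟨cyc_om, fun _ _ b i _ m => cyc_fl m b i⟩)
    (continuous_id.inner continuous_const) (f := fun v => inner ℂ v x)
    (g := fun v => inner ℂ v y) h) z

theorem sep_symm (s : Dh.Sep f g) : Dh.Sep g f := fun x a y b => by
  have := s y b x a
  rw [← neg_sub] at this
  simpa only [Dh.mdot, Pi.neg_apply, mul_neg, neg_mul, neg_neg] using this

/-- the fields that are local relative to `S` are local relative to each other -/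
def Trans (S : Dh.Theory K) (D : Submodule ℂ H) : Prop :=
  ∀ C C' f g, RelLoc S D C → RelLoc S D C' → IsTest f → IsTest g → Dh.Sep f g → ∀ v ∈ D,
    (Dh.Par K D 1 C → C f (C' g v) = C' g (C f v)) ∧
      (Dh.Par K D (-1) C → Dh.Par K D (-1) C' → C f (C' g v) = -C' g (C f v))

theorem U_split {L} (l : IsLor L) (a : V) (v : H) :
    K.U 1 Dh.one a (K.U 1 L 0 v) = K.U 1 L a v := by
  have := (K.mul 1 Dh.one a 1 L 0 one_pos one_pos lor1 l).resolve_right (fun h => h.1 rfl) v
  rw [this, one_mul]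
  congr 1 <;> ext <;> simp [Dh.sim, Dh.one, Dh.bas]

variable (x : ∀ B, S.fld B → ∃ C, P.fld C ∧ Dh.Agr S B C)
include x

/-- the extension of a field, with its adjoint and its parity -/
theorem ext_adj (s : S.fld A) (d : Dh.Adj S.dom A B) : ∃ E E', P.fld E ∧ Dh.Adj P.dom E E' ∧
    Dh.Agr S A E ∧ Dh.Agr S B E' ∧ ∀ c : ℝ, (c : ℂ) * c = 1 → Dh.Par K S.dom c A →
      Dh.Par K P.dom c E := by
  obtain ⟨E, p, q⟩ := x A s
  obtain ⟨E', -, r⟩ := P.adj E p
  obtain ⟨F, s', d'⟩ := S.adj A s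
  have a : Dh.Agr S B E' := fun f w i c => ext_C S fun v k => by
    rw [← bb f, ← r _ (tb i) v (cyc_dom x k) w (cyc_dom x c), q _ v (tb i) k,
      d _ (tb i) v (cyc_in k) w (cyc_in c)]
  refine ⟨E, E', p, r, q, a, fun c e o => ⟨fun f i v m => ext_C S fun w k => ?_⟩⟩
  have z : ∀ {v w}, v ∈ P.dom → Dh.Cyc S w →
      inner ℂ w (E f v) = inner ℂ (B (Dh.bar f) w) v := fun m k => by
    rw [← inner_conj_symm, r f i _ m _ (cyc_dom x k), a _ _ (tb i) k, inner_conj_symm]
  rw [z (P.gam v m) k, inner_smul_right, ← gam_inner, ← gam_inner, z m (cyc_gam k),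
    par_gam (adj_par d o e) e (tb i) (cyc_in k), inner_smul_left, Complex.conj_ofReal]

theorem rl_fld (h : P.fld C) : RelLoc S P.dom C where
  inv f i := P.inv.2 C f h i
  lin f g c := P.lin C f g c h
  cont := P.cont C h
  adj := have ⟨B, p, q⟩ := P.adj C h
    ⟨B, fun f i => P.inv.2 B f p i, q⟩
  transl y f := P.transl C y f h
  loc A B f g v w s d i j e p q := by
    obtain ⟨E, E', a, b, c, k, r⟩ := ext_adj x s d
    have m := cyc_dom x p
    rw [← k _ w (tb j) q, adj_symm b _ (tb j) w (cyc_dom x q) _ (P.inv.2 C f h i v m), bb,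
      ← c g v j p]
    refine ⟨fun o => by rw [(P.loc E C g f a h j i (sep_symm e) v m).1 (r 1 (one_mul _) o)],
      fun o => congrArg _ ?_⟩
    obtain ⟨Y, Z, y, z, y', z', u⟩ := P.split C h
    have r' : Dh.Par K P.dom (-1) E := by simpa using r (-1) (by norm_num) (by simpa using o)
    have n := P.inv.2 E g a j v m
    have l := fld_lin a j 1 (P.inv.2 Y f y i v m) (P.inv.2 Z f z i v m)
    rw [one_smul, one_smul] at l
    rw [u f i v m, u f i _ (P.gam _ n), l, ← (P.loc Y E f g y a i j e v m).1 y',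
      (P.loc E Z g f a z j i (sep_symm e) v m).2 r' z', y'.par f i _ n, z'.par f i _ n, map_add,
      map_smul, map_smul, gam_gam, gam_gam, one_smul, neg_one_smul]

theorem rl_t (c : Dh.Conf P U t) (m n) : RelLoc S P.dom (t m n) :=
  have l := t_loc c m n
  { inv := fun f i v => t_dom c m n i
    lin := l.lin
    cont := fun v k w _ => continuous_const.inner (l.cont v k)
    adj := ⟨_, fun f i v => t_dom c m n i, l.adj⟩
    transl := l.transl
    loc := fun A B f g v w s d i j e p q => by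
      obtain ⟨E, E', a, b, z, k, -⟩ := ext_adj x s d
      have y := l.loc E E' f g a b trivial i j e v (cyc_dom x p) w (cyc_dom x q)
      rw [k _ w (tb j) q, z g v j p] at y
      exact ⟨fun _ => y, fun _ => by
        rw [(t_par c m n).par f i _ (cyc_dom x (cyc_fl p s j)), one_smul, gam_gam, y]⟩ }

/-- the Borchers class -/
def borT (r : Trans S P.dom) : Dh.Theory K where
  dom := P.dom
  fld := RelLoc S P.dom
  inv := ⟨P.inv.1, fun _ f a i => a.inv f i⟩
  gam := P.gam
  rep := P.rep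
  cyclic M m := P.cyclic M ⟨m.1, fun A f a => m.2 A f (rl_fld x a)⟩
  lin _ f g c a := a.lin f g c
  cont _ a := a.cont
  adj _ a := have ⟨B, p, q⟩ := a.adj
    ⟨B, rl_adj x a q p, q⟩
  split A a := by
    refine ⟨_, _, rl_cb (1 / 2) (1 / 2) a (rl_tw x a), rl_cb (1 / 2) (-1 / 2) a (rl_tw x a),
      ⟨fun f i v m => ?_⟩, ⟨fun f i v m => ?_⟩, fun f i v m => ?_⟩ <;>
    simp only [cb, tw, map_add, map_smul, gam_gam] <;> module
  transl _ y f a := a.transl y f
  loc := r

theorem bor_of (r : Trans S P.dom) : ∃ R : Dh.Theory K, R.dom = P.dom ∧ Dh.Bor S R ∧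
    ∀ A, P.fld A → R.fld A :=
  ⟨borT x r, rfl, ⟨fun B b => have ⟨C, p, q⟩ := x B b
    ⟨C, rl_fld x p, q⟩, fun _ => Iff.rfl⟩, fun _ => rl_fld x⟩

omit x

/-- the improved tensor is a stress tensor of the Borchers class -/
theorem stress_bor (c : Dh.Conf P U t) (b : Dh.Bor S P) : Dh.Stress P t where
  bose m n := ⟨(b.all _).2 (rl_t b.mem c m n), t_par c m n⟩
  herm m n := (t_loc c m n).adj
  symm := c.symm
  conserved := c.conserved
  cov m n L a f l i v k := by
    obtain ⟨r, p, q, y, e, d⟩ := c.prim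
    obtain ⟨j, z⟩ := y.2 (m, n)
    cases z
    rw [← U_split l, (t_loc c _ _).transl a f i _ (P.rep _ _ _ one_pos l v k),
      d.cov j 1 L (fun x => f (Dh.sim 1 Dh.one a x)) one_pos l (t_sim one_pos lor1 a i) v k,
      ← Fintype.sum_prod_type',
      ← y.sum_comp]
    have u := fun v w => K.unitary 1 Dh.one a v w one_pos lor1
    refine ext_U P (L := Dh.one) one_pos lor1 a fun w _ => ?_
    rw [u, inner_sum, inner_sum]
    refine Finset.sum_congr rfl fun s _ => ?_
    rw [inner_smul_right, inner_smul_right, ← U_split l a, u, e]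
    congr 1
    · simp
    · congr 3
      ext y
      congr 1
      ext
      simp [Dh.sim, Dh.one, Dh.bas]

end

universe u

variable {H : Type u} [NormedAddCommGroup H] [InnerProductSpace ℂ H] [CompleteSpace H]
  {K : Dh.Frame H} {S : Dh.Theory K} {N : Set V → VonNeumannAlgebra H} {T : Ix → Ix → Fld H}

/-- **the Borchers class is conformal**, given the transitivity of locality -/
theorem bor_conf (h : Dh.Hyp S T N) (r : ∀ P : Dh.Theory K,
    (∀ B, S.fld B → ∃ C, P.fld C ∧ Dh.Agr S B C) → Trans S P.dom) :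
    ∃ (R : Dh.Theory K) (t : Ix → Ix → Fld H), Dh.Bor S R ∧ Dh.Stress R t ∧ Dh.PGen R t ∧
      Dh.Chg S R T t ∧ (∃ U, Dh.Conf R U t) ∧ ∃ P : Dh.Theory K, P.dom = R.dom ∧ Dh.Ext S P N ∧
        Dh.Fin' P ∧ (∀ v ∈ P.dom, Dh.Cyc P v) ∧ (∃ N', Dh.Net K N' ∧ Dh.Aff P N') ∧
        ∀ A, P.fld A → R.fld A ∧ Dh.Desc P t A := by
  obtain ⟨A, a, s, P, S', t, e, g, b, f, c, n, z⟩ := ext5 h
  obtain ⟨R, d, k, i⟩ := bor_of e.mem (r P e.mem)
  have ⟨x, y⟩ := z R d i
  exact ⟨R, t, k, stress_bor x k, x.poincare y, chg s (fun m n => (a.1 m n).1) g x.same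
    (fun v c => d ▸ cyc_dom e.mem c), ⟨_, x⟩, P, d.symm, e, f, c, n,
    fun A p => ⟨i A p, (z P rfl fun _ p => p).1.desc f A p⟩⟩

end Vale.Agent.N352.H
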