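import Vale.Agent.N352.Z.Top
import Vale.Agent.N352.DefH

/-!
# N352, block H: theories in a Hilbert space and theories on a domain
-/

set_option linter.all false

open Filter Topology

namespace Vale.Agent.N352.H

open P352.GF
open UniformSpace (Completion)

noncomputable section

variable {H : Type*} [NormedAddCommGroup H] [InnerProductSpace ℂ H] [CompleteSpace H]
  {K : Dh.Frame H} {E : Type*} [NormedAddCommGroup E] [InnerProductSpace ℂ E]

/-- `A` is `B`, seen through `φ` -/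
def Eqv (φ : E →ₗᵢ[ℂ] H) (A : Fld H) (B : Fld E) : Prop :=
  ∀ f v, IsTest f → A f (φ v) = φ (B f v)

/-- operators on the range of `φ` -/
def lift (φ : E →ₗᵢ[ℂ] H) (P : Fn → E → H) : Fld H := fun f w => P f (Function.invFun φ w)

theorem lift_eq (φ : E →ₗᵢ[ℂ] H) (P : Fn → E → H) (f v) : lift φ P f (φ v) = P f v :=
  congrArg (P f) (Function.leftInverse_invFun φ.injective v)

/-- the push forward of a field -/
def up (φ : E →ₗᵢ[ℂ] H) (B : Fld E) : Fld H := lift φ fun f v => φ (B f v)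

theorem up_eq (φ : E →ₗᵢ[ℂ] H) (B : Fld E) (f v) : up φ B f (φ v) = φ (B f v) := lift_eq _ _ _ _

theorem up_eqv (φ : E →ₗᵢ[ℂ] H) (B : Fld E) : Eqv φ (up φ B) B := fun f v _ => up_eq φ B f v

/-- the kinematical part -/
structure Lk (K : Dh.Frame H) (D : Submodule ℂ H) (φ : E →ₗᵢ[ℂ] H) (ω : E) (G : E → E)
    (u : ℝ → (Ix → V) → V → E → E) : Prop where
  mem : ∀ v, φ v ∈ D
  sur : ∀ w ∈ D, ∃ v, φ v = w
  vac : K.Ω = φ ω
  gam : ∀ v, K.Γ (φ v) = φ (G v)
  U : ∀ s L a v, 0 < s → IsLor L → K.U s L a (φ v) = φ (u s L a v)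

/-- `S` is `Q`, seen through `φ` -/
structure Rl (S : Dh.Theory K) (Q : Theory E) (φ : E →ₗᵢ[ℂ] H) (G : E → E) : Prop
    extends Lk K S.dom φ Q.vac G Q.U where
  up : ∀ B, Q.fld B → ∃ A, S.fld A ∧ Eqv φ A B
  dn : ∀ A, S.fld A → ∃ B, Q.fld B ∧ Eqv φ A B
  gr : Dz.Gr Q G

theorem dense (S : Dh.Theory K) : Dense (S.dom : Set H) := S.cyclic _ S.inv

theorem ext_D (S : Dh.Theory K) {x y : H} (h : ∀ v ∈ S.dom, inner ℂ v x = inner ℂ v y) : x = y :=
  ext_inner_left ℂ fun z => congrFun ((continuous_id.inner continuous_const).ext_on (dense S)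
    (continuous_id.inner continuous_const) (f := fun v => inner ℂ v x)
    (g := fun v => inner ℂ v y) h) z

/-- adjoints are unique -/
theorem adj_eq (S : Dh.Theory K) {A B B' : Fld H} (a : Dh.Adj S.dom A B) (b : Dh.Adj S.dom A B') {f}
    (hf : IsTest f) : ∀ w ∈ S.dom, B f w = B' f w := fun w m => ext_D S fun v n => by
  have x := a _ (t_bar hf) v n w m
  have y := b _ (t_bar hf) v n w m
  have e : Dh.bar (bar f) = f := P352.H246.bar_bar f
  rw [e] at x y
  exact x.symm.trans y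

theorem isoU (K : Dh.Frame H) {s L} (hs : 0 < s) (hL : IsLor L) (a) : Isometry (K.U s L a) :=
  Isometry.of_dist_eq fun x y => by
    have n : ∀ x, ‖K.U s L a x‖ ^ 2 = ‖x‖ ^ 2 := fun x => by
      rw [← inner_self_eq_norm_sq (𝕜 := ℂ), ← inner_self_eq_norm_sq (𝕜 := ℂ), K.unitary s L a _ _ hs hL]
    rw [dist_eq_norm, dist_eq_norm, ← sq_eq_sq₀ (norm_nonneg _) (norm_nonneg _), @norm_sub_sq ℂ,
      @norm_sub_sq ℂ, n, n, K.unitary s L a _ _ hs hL]

theorem gam_inner (K : Dh.Frame H) (v w : H) : inner ℂ (K.Γ v) w = inner ℂ v (K.Γ w) := by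
  rw [← ContinuousLinearMap.adjoint_inner_right, ← ContinuousLinearMap.star_eq_adjoint, K.herm]

theorem gam_gam (K : Dh.Frame H) (v : H) : K.Γ (K.Γ v) = v := DFunLike.congr_fun K.inv v

/-- the completion of a dense subspace -/
def iso (φ : E →ₗᵢ[ℂ] H) (d : DenseRange φ) : Completion E ≃ₗᵢ[ℂ] H :=
  (LinearEquiv.refl ℂ E).extendOfIsometry
    (Completion.toComplₗᵢ (𝕜 := ℂ) (E := E)).toLinearMap φ.toLinearMap Completion.denseRange_coe d
    fun x => (φ.norm_map x).trans (Completion.norm_coe x).symm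

theorem iso_coe (φ : E →ₗᵢ[ℂ] H) (d : DenseRange φ) (v : E) : iso φ d v = φ v :=
  LinearEquiv.extendOfIsometry_eq _ _ _ _ _ _ v

theorem cj {H' : Type*} [NormedAddCommGroup H'] [InnerProductSpace ℂ H'] [CompleteSpace H']
    (j : H' ≃ₗᵢ[ℂ] H) (X z) : j.conjStarAlgEquiv X (j z) = j (X z) := by
  rw [LinearIsometryEquiv.conjStarAlgEquiv_apply_apply, LinearIsometryEquiv.symm_apply_apply]

section lk

variable {D : Submodule ℂ H} {φ : E →ₗᵢ[ℂ] H} {ω : E} {G : E → E}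
  {u : ℝ → (Ix → V) → V → E → E} (h : Lk K D φ ω G u) {A A' : Fld H} {B B' : Fld E}
include h

theorem Lk.all {p : H → Prop} : (∀ w ∈ D, p w) ↔ ∀ v, p (φ v) :=
  ⟨fun k v => k _ (h.mem v), fun k w m => by
    obtain ⟨v, rfl⟩ := h.sur w m
    exact k v⟩

theorem Lk.adj (a : Eqv φ A B) (b : Eqv φ A' B') : Dh.Adj D A A' ↔ Dz.IsAdj B B' := by
  simp only [Dh.Adj, Dz.IsAdj, h.all]
  refine ⟨fun k f v w t => ?_, fun k f t v w => ?_⟩
  · have := k f t v w
    rwa [a f v t, b (Dh.bar f) w (t_bar t), φ.inner_map_map, φ.inner_map_map] at this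
  · rw [a f v t, b (Dh.bar f) w (t_bar t), φ.inner_map_map, φ.inner_map_map]
    exact k f v w t

theorem Lk.par (a : Eqv φ A B) {c : ℂ} :
    Dh.Par K D c A ↔ ∀ f v, IsTest f → B f (G v) = c • G (B f v) :=
  ⟨fun k f v t => φ.injective <| by
      rw [← a f _ t, ← h.gam, k.par f t _ (h.mem v), a f v t, h.gam, map_smul],
    fun k => ⟨fun f t => h.all.2 fun v => by
      rw [h.gam, a f _ t, k f v t, a f v t, h.gam, map_smul]⟩⟩

end lk

namespace Rl

variable {S : Dh.Theory K} {Q : Theory E} {φ : E →ₗᵢ[ℂ] H} {G : E → E} (h : Rl S Q φ G)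
  {A A' : Fld H} {B B' : Fld E}
include h

theorem dr : DenseRange φ := (dense S).mono fun w m => h.sur w m

theorem even : G Q.vac = Q.vac := φ.injective (by rw [← h.gam, ← h.vac, K.even])

/-- every adjoint is a field -/
theorem adj' (s : S.fld A) (a : Eqv φ A B) (d : Dh.Adj S.dom A A') :
    ∃ B', Q.fld B' ∧ Dz.IsAdj B B' ∧ Eqv φ A' B' := by
  obtain ⟨C, c, x⟩ := S.adj A s
  obtain ⟨B', b, y⟩ := h.dn C c
  exact ⟨B', b, (h.adj a y).1 x, fun f v t => (adj_eq S d x t _ (h.mem v)).trans (y f v t)⟩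

theorem bose_up (b : Q.bose B) (s : S.fld A) (a : Eqv φ A B) : Dh.Bose S A :=
  ⟨s, (h.par a).2 fun f v t => by rw [one_smul, h.gr.bos B f v b t]⟩

end Rl

section gr

variable {Q : Theory E} {G : E → E} (g : Dz.Gr Q G) {B : Fld E}
include g

theorem g_add (v w : E) : G (v + w) = G v + G w := ext_inner_right ℂ fun z => by
  rw [g.herm, inner_add_left, inner_add_left, g.herm, g.herm]

theorem g_smul (c : ℂ) (v : E) : G (c • v) = c • G v := ext_inner_right ℂ fun z => by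
  rw [g.herm, inner_smul_left, inner_smul_left, g.herm]

/-- the grading -/
def gm : E →ₗ[ℂ] E := ⟨⟨G, g_add g⟩, g_smul g⟩

/-- an even field is a Bose field -/
theorem bose_of (b : Q.fld B) (e : ∀ f v, IsTest f → B f (G v) = G (B f v)) :
    ∃ C, Q.bose C ∧ ∀ f v, IsTest f → B f v = C f v := by
  obtain ⟨C, C', c, c', x⟩ := g.split B b
  refine ⟨C, c, fun f v t => ?_⟩
  have := e f (G v) t
  rw [x _ _ t, x _ _ t, g_add g, g.inv, ← g.bos C f _ c t, g.inv, c'.2 f v t, add_right_inj] at this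
  have k : G (-G (C' f v)) = -C' f v := ((gm g).map_neg _).trans (congrArg _ (g.inv _))
  rw [k] at this
  have z : (2 : ℂ) • C' f v = 0 := by rw [two_smul, add_eq_zero_iff_eq_neg]; exact this
  rw [x f v t, (smul_eq_zero.1 z).resolve_left two_ne_zero, add_zero]

end gr

namespace Rl

variable {S : Dh.Theory K} {Q : Theory E} {φ : E →ₗᵢ[ℂ] H} {G : E → E} (h : Rl S Q φ G)
  {A A' : Fld H} {B B' : Fld E}
include h

theorem rep (s : S.fld A) : ∃ B, Q.fld B ∧ Eqv φ A B ∧ (Dh.Bose S A → Q.bose B) := by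
  obtain ⟨B, b, a⟩ := h.dn A s
  by_cases e : Dh.Bose S A
  · obtain ⟨C, c, x⟩ := bose_of h.gr b fun f v t => by simpa using (h.par a).1 e.2 f v t
    exact ⟨C, Q.bose_fld C c, fun f v t => x f v t ▸ a f v t, fun _ => c⟩
  · exact ⟨B, b, a, fun k => (e k).elim⟩

theorem cyc_up {v : E} (c : Dz.Cyc Q v) : Dh.Cyc S (φ v) := fun M m =>
  c (M.comap φ.toLinearMap) (show φ _ ∈ M from h.vac ▸ m.1) fun B f v b t n => by
    obtain ⟨A, s, a⟩ := h.up B b
    exact show φ _ ∈ M from a f v t ▸ m.2 A f s t _ n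

theorem cyc_dn {w : H} (c : Dh.Cyc S w) : ∃ v, φ v = w ∧ Dz.Cyc Q v := by
  obtain ⟨v, a, b⟩ : w ∈ (N352.cy Q).map φ.toLinearMap := c _ ⟨⟨_, cyc_vac, h.vac.symm⟩, by
    rintro A f s t _ ⟨v, c, rfl⟩
    obtain ⟨B, b, a⟩ := h.dn A s
    exact ⟨_, Cyc.fld c b t, (a f v t).symm⟩⟩
  exact ⟨v, b, a⟩

variable {j : Completion E ≃ₗᵢ[ℂ] H} (c : ∀ v : E, j v = φ v)
include c

theorem ue {s L} (hs : 0 < s) (hL : IsLor L) (a z) : j (Dz.Ue Q s L a z) = K.U s L a (j z) :=
  Completion.induction_on z (isClosed_eq (j.continuous.comp Completion.continuous_map)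
    ((isoU K hs hL a).continuous.comp j.continuous)) fun v =>
      (congrArg j (ue_coe hs hL a v)).trans (by rw [c, c, h.U _ _ _ _ hs hL])

theorem om : j (Dz.om Q) = K.Ω := (c _).trans h.vac.symm

theorem cg {Γ : Completion E →L[ℂ] Completion E} :
    j.conjStarAlgEquiv Γ = K.Γ ↔ ∀ v : E, Γ v = (G v : E) :=
  ⟨fun k v => j.injective (by rw [← cj, k, c, c, h.gam]), fun k => ContinuousLinearMap.ext fun z =>
    h.dr.induction_on z (isClosed_eq (map_continuous _) (map_continuous _)) fun v => by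
      rw [h.gam, ← c, cj, k, c]⟩

end Rl

end

end Vale.Agent.N352.H
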