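import Vale.Agent.N352.H.Ex5
import Vale.Agent.N352.DefB

/-!
# N352, block H: the class of all relatively local fields
-/

set_option linter.all false

open Filter Topology

namespace Vale.Agent.N352.H

open P352.GF
open Dh (RelLoc)

noncomputable section

variable {H : Type*} [NormedAddCommGroup H] [InnerProductSpace ℂ H] [CompleteSpace H]
  {K : Dh.Frame H} {S P : Dh.Theory K} {A B C C' : Fld H} {f g : Fn} {v w : H}
  {D : Submodule ℂ H}

theorem bb (f : Fn) : Dh.bar (Dh.bar f) = f := P352.H246.bar_bar f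

theorem tb (i : IsTest f) : IsTest (Dh.bar f) := t_bar i

theorem adj_symm (d : Dh.Adj D A B) : Dh.Adj D B A := fun f i v m w n => by
  rw [← inner_conj_symm, ← inner_conj_symm v, d _ (tb i) w n v m, bb]

theorem sep_bar (s : Dh.Sep f g) : Dh.Sep (Dh.bar f) (Dh.bar g) := fun x a y b =>
  s x (P352.H246.tsupport_bar f ▸ a) y (P352.H246.tsupport_bar g ▸ b)

theorem par_gam {c : ℂ} (p : Dh.Par K D c A) (e : c * c = 1) (i : IsTest f) (m : v ∈ D) :
    K.Γ (A f v) = c • A f (K.Γ v) := by rw [p.par f i v m, smul_smul, e, one_smul]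

theorem adj_par {c : ℝ} (d : Dh.Adj S.dom A B) (p : Dh.Par K S.dom c A) (e : (c : ℂ) * c = 1) :
    Dh.Par K S.dom c B := ⟨fun f i v m => ext_D S fun w n => by
  have := adj_symm d
  rw [← bb f, ← d _ (tb i) w n _ (S.gam v m), ← gam_inner, par_gam p e (tb i) n, inner_smul_left,
    d _ (tb i) _ (S.gam w n) v m, gam_inner, inner_smul_right, Complex.conj_ofReal]⟩

theorem adj_lin (d : Dh.Adj P.dom C B) (i : IsTest f) (c : ℂ) (m : v ∈ P.dom) (n : w ∈ P.dom) :
    C f (v + c • w) = C f v + c • C f w := ext_D P fun z k => by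
  rw [← inner_conj_symm, d f i _ (add_mem m (P.dom.smul_mem c n)) z k, ← inner_conj_symm z,
    inner_add_left, inner_add_left, inner_smul_left, inner_smul_left, d f i v m z k, d f i w n z k]

theorem adj_neg (d : Dh.Adj P.dom C B) (i : IsTest f) (m : v ∈ P.dom) : C f (-v) = -C f v :=
  ext_D P fun z k => by
    rw [← inner_conj_symm, d f i _ (neg_mem m) z k, ← inner_conj_symm z, inner_neg_left,
      inner_neg_left, d f i v m z k]

theorem cyc_in (c : Dh.Cyc S v) : v ∈ S.dom := c _ S.inv

theorem cyc_gam (c : Dh.Cyc S v) : Dh.Cyc S (K.Γ v) :=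
  (c (cyH S ⊓ (cyH S).comap K.Γ.toLinearMap) ⟨⟨cyc_om, show Dh.Cyc S (K.Γ _) from
    K.even.symm ▸ cyc_om⟩, fun B f b i v m => ⟨cyc_fl m.1 b i, by
      obtain ⟨C, C', c, c', p, p', e⟩ := S.split B b
      have n := cyc_in m.1
      show K.Γ _ ∈ cyH S
      rw [e f i v n, map_add, par_gam p (one_mul _) i n, par_gam p' (by norm_num) i n]
      exact add_mem ((cyH S).smul_mem _ (cyc_fl m.2 c i)) ((cyH S).smul_mem _ (cyc_fl m.2 c' i))⟩⟩).2

theorem hU_lin {s L} (hs : 0 < s) (hL : IsLor L) (a) (P : Dh.Theory K) (c d : ℂ) (v w : H) :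
    K.U s L a (c • v + d • w) = c • K.U s L a v + d • K.U s L a w := ext_U P hs hL a fun z _ => by
  simp only [inner_add_right, inner_smul_right, K.unitary s L a _ _ hs hL]

/-- conjugation by the grading -/
def tw (K : Dh.Frame H) (C : Fld H) : Fld H := fun f v => K.Γ (C f (K.Γ v))

/-- linear combinations -/
def cb (a b : ℂ) (C C' : Fld H) : Fld H := fun f v => a • C f v + b • C' f v

theorem rl_cb (a b : ℂ) (h : RelLoc S P.dom C) (k : RelLoc S P.dom C') :
    RelLoc S P.dom (cb a b C C') where
  inv f i v m := add_mem (P.dom.smul_mem _ (h.inv f i v m)) (P.dom.smul_mem _ (k.inv f i v m))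
  adj := have ⟨B, q, p⟩ := h.adj
    have ⟨B', q', p'⟩ := k.adj
    ⟨cb (star a) (star b) B B', fun f i v m =>
      add_mem (P.dom.smul_mem _ (q f i v m)) (P.dom.smul_mem _ (q' f i v m)), fun f i v m w n => by
      simp only [cb, inner_add_left, inner_add_right, inner_smul_left, inner_smul_right,
        p f i v m w n, p' f i v m w n, starRingEnd_apply]⟩
  lin f g c i j v m := by
    simp only [cb, h.lin f g c i j v m, k.lin f g c i j v m]
    module
  cont v m w n := by
    simp only [cb, inner_add_right, inner_smul_right]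
    exact (continuous_const.mul (h.cont v m w n)).add (continuous_const.mul (k.cont v m w n))
  transl y f i v m := by
    rw [cb, h.transl y f i v m, k.transl y f i v m]
    exact (hU_lin one_pos lor1 y P _ _ _ _).symm
  loc A B f g v w s d i j e p q := by
    have x := h.loc A B f g v w s d i j e p q
    have y := k.loc A B f g v w s d i j e p q
    simp only [cb, inner_add_right, inner_smul_right, map_add, map_smul]
    exact ⟨fun r => by rw [x.1 r, y.1 r], fun r => by rw [x.2 r, y.2 r]⟩

variable (x : ∀ B, S.fld B → ∃ C, P.fld C ∧ Dh.Agr S B C)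
include x

theorem rl_tw (h : RelLoc S P.dom C) : RelLoc S P.dom (tw K C) where
  inv f i v m := P.gam _ (h.inv f i _ (P.gam v m))
  adj := have ⟨B, q, p⟩ := h.adj
    ⟨tw K B, fun f i v m => P.gam _ (q f i _ (P.gam v m)), fun f i v m w n => by
      rw [tw, tw, gam_inner, p f i _ (P.gam v m) _ (P.gam w n), gam_inner]⟩
  lin f g c i j v m := by simp only [tw, h.lin f g c i j _ (P.gam v m), map_add, map_smul]
  cont v m w n := by
    simp only [tw, ← gam_inner]
    exact h.cont _ (P.gam v m) _ (P.gam w n)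
  transl y f i v m := by
    have c := fun v => K.comm 1 Dh.one y v one_pos lor1
    rw [tw, ← c, h.transl y f i _ (P.gam v m), ← c]
    rfl
  loc A B f g v w s d i j e p q := by
    obtain ⟨E, -, a⟩ := h.adj
    have y := h.loc A B f g _ _ s d i j e (cyc_gam p) (cyc_gam q)
    simp only [tw, gam_gam]
    refine ⟨fun r => ?_, fun r => ?_⟩
    · rw [← gam_inner, par_gam (adj_par (c := 1) d r (one_mul _)) (one_mul _) (tb j) (cyc_in q),
        Complex.ofReal_one, one_smul, y.1 r, r.par g j v (cyc_in p), one_smul, gam_inner]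
    · have r' : Dh.Par K S.dom ((-1 : ℝ) : ℂ) A := by simpa using r
      rw [← gam_inner, par_gam (adj_par d r' (by norm_num)) (by norm_num) (tb j) (cyc_in q),
        inner_smul_left, y.2 r, r.par g j v (cyc_in p), neg_one_smul, map_neg, gam_gam, gam_inner,
        gam_gam, adj_neg a i (cyc_dom x (cyc_fl p s j))]
      simp

theorem rl_adj (h : RelLoc S P.dom C) (d : Dh.Adj P.dom C B)
    (k : ∀ f, IsTest f → ∀ v ∈ P.dom, B f v ∈ P.dom) : RelLoc S P.dom B := by
  have a : ∀ {f v w}, IsTest f → v ∈ P.dom → w ∈ P.dom →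
      inner ℂ w (B f v) = inner ℂ (C (Dh.bar f) w) v := fun i m n => by
    rw [d _ (tb i) _ n _ m, bb]
  refine ⟨k, fun f g c i j v m => ext_D P fun w n => ?_,
    fun v m w n => ?_, ⟨C, h.inv, adj_symm d⟩, fun y f i v m => ext_U P one_pos lor1 y fun w n => ?_,
    fun A A' f g v w s e i j r p q => ?_⟩
  · rw [inner_add_right, inner_smul_right, a (t_lin c i j) m n, a i m n, a j m n,
      show Dh.bar (fun x => f x + c * g x) = fun x => Dh.bar f x + star c * Dh.bar g x from
        funext fun x => by simp [Dh.bar], h.lin _ _ _ (tb i) (tb j) w n, inner_add_left,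
      inner_smul_left]
    simp
  · refine (Complex.continuous_conj.comp ((h.cont w n v m).comp
      (Tn.cjS (E := V)).continuous)).congr fun g => ?_
    exact (inner_conj_symm _ _).trans (a (f := Dh.ev g) ⟨g, rfl⟩ m n).symm
  · refine (a i (P.rep _ _ _ one_pos lor1 v m) (P.rep _ _ _ one_pos lor1 w n)).trans ?_
    refine (congrArg (inner ℂ · _) (h.transl y _ (tb i) w n)).trans ?_
    refine (K.unitary _ _ _ _ _ one_pos lor1).trans (Eq.trans ?_
      (K.unitary _ _ _ _ _ one_pos lor1).symm)
    exact (a (t_sim one_pos lor1 y i) m n).symm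
  · obtain ⟨E, s', e'⟩ := S.adj A s
    have u := cyc_fl q s' (tb j)
    have y := h.loc E A _ _ w v s' (adj_symm e') (tb i) (tb j) (sep_bar r) q p
    have z := (rl_tw x h).loc E A _ _ w v s' (adj_symm e') (tb i) (tb j) (sep_bar r) q p
    rw [adj_eq S e e' (tb j) w (cyc_in q), a i (cyc_dom x p) (cyc_dom x u)]
    rw [bb] at y z
    refine ⟨fun o => ?_, fun o => ?_⟩
    · rw [a i (cyc_dom x (cyc_fl p s j)) (cyc_dom x q), ← inner_conj_symm,
        ← y.1 (adj_par (c := 1) e' o (one_mul _)), inner_conj_symm]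
    · have o' : Dh.Par K S.dom ((-1 : ℝ) : ℂ) A := by simpa using o
      have := z.2 (by simpa using adj_par e' o' (by norm_num))
      simp only [tw, gam_gam] at this
      rw [← gam_inner, a i (P.gam _ (cyc_dom x (cyc_fl p s j))) (P.gam _ (cyc_dom x q)),
        ← gam_inner, ← inner_conj_symm, ← this, inner_conj_symm]

end

end Vale.Agent.N352.H
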