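import Vale.Agent.N352.H.Bd

/-!
# N352, block H: locality can be checked in opposite wedges
-/

set_option linter.all false

open Filter Topology

namespace Vale.Agent.N352.H

open P352.GF P352X P352X.EB
open Dh (RelLoc)

noncomputable section

variable {H : Type*} [NormedAddCommGroup H] [InnerProductSpace ℂ H] [CompleteSpace H]
  {K : Dh.Frame H} {S P : Dh.Theory K} {C C' : Fld H} {f g : Fn} {v w : H}

theorem cut_lim {F : Fn → ℂ} (c : Continuous fun g => F (Dh.ev g)) (i : IsTest f)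
    (h : ∀ k, Dh.In Set.univ k → tsupport k ⊆ tsupport f → F k = 0) : F f = 0 := by
  obtain ⟨f, rfl⟩ := i
  refine tendsto_nhds_unique ((c.tendsto f).comp (ana_row.lim f))
    (tendsto_const_nhds.congr fun R => (h _ ?_ ?_).symm)
  all_goals
    have a := ana_row.inn R _ ⟨f, rfl⟩
    have e : Dh.ev (sch (cutf R (ev f))) = cutf R (ev f) := Ap.ev_sch a.1
    rw [e]
  exacts [⟨a.1, a.2.1, Set.subset_univ _⟩, a.2.2.trans Set.inter_subset_left]

theorem rl_add (h : RelLoc S P.dom C) (i : IsTest f) (j : IsTest g) (m : v ∈ P.dom) :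
    C (fun x => f x + g x) v = C f v + C g v := by simpa using h.lin f g 1 i j v m

theorem rl_add' (h : RelLoc S P.dom C) (i : IsTest f) (m : v ∈ P.dom) (n : w ∈ P.dom) :
    C f (v + w) = C f v + C f w := by
  obtain ⟨_, -, d⟩ := h.adj
  simpa using adj_lin d i 1 m n

/-- **from opposite wedges to space-like separated supports** -/
theorem loc_wd (h : RelLoc S P.dom C) (k : RelLoc S P.dom C') (z : ℂ)
    (r : ∀ a b y f g, Dh.IsNull a → Dh.IsNull b → Dh.mdot a b = 1 → Dh.In (Dh.Wdg a b y) f →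
      Dh.In (Dh.Wdg b a y) g → ∀ v ∈ P.dom, C f (C' g v) = z • C' g (C f v))
    (i : IsTest f) (j : IsTest g) (s : Dh.Sep f g) (m : v ∈ P.dom) :
    C f (C' g v) = z • C' g (C f v) := by
  obtain ⟨B, b, d⟩ := h.adj
  obtain ⟨B', b', d'⟩ := k.adj
  have e : ∀ {C B : Fld H} {f v w}, Dh.Adj P.dom C B → IsTest f → v ∈ P.dom → w ∈ P.dom →
      inner ℂ w (C f v) = inner ℂ (B (Dh.bar f) w) v := fun d i m n => by
    rw [← inner_conj_symm, d _ i _ m _ n, inner_conj_symm]
  refine ext_D P fun w n => sub_eq_zero.1 ?_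
  rw [inner_smul_right]
  refine cut_lim (F := fun f => inner ℂ w (C f (C' g v)) - z * inner ℂ w (C' g (C f v)))
    (((h.cont _ (k.inv g j v m) w n).sub ((continuous_const (y := z)).mul
      (h.cont v m _ (b' _ (tb j) w n)))).congr fun f => by
        rw [e d' j (h.inv _ ⟨f, rfl⟩ v m) n]; rfl) i fun f i o => ?_
  refine cut_lim (F := fun g => inner ℂ w (C f (C' g v)) - z * inner ℂ w (C' g (C f v)))
    (((k.cont v m _ (b _ (tb i.1) w n)).sub ((continuous_const (y := z)).mul
      (k.cont _ (h.inv f i.1 v m) w n))).congr fun g => by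
        rw [e d i.1 (k.inv _ ⟨g, rfl⟩ v m) n]; rfl) j fun g j o' => ?_
  rw [← inner_smul_right, ← inner_sub_right]
  refine (congrArg _ (pou_row H (fun f g => C f (C' g v) - z • C' g (C f v)) (fun f f' g p q t => ?_)
    (fun f g g' p q t => ?_) (fun x y t => ?_) f g i j fun x a y b => s x (o a) y (o' b))).trans
    (inner_zero_right _)
  · rw [rl_add h p.1 q.1 m, rl_add h p.1 q.1 (k.inv g t.1 v m),
      rl_add' k t.1 (h.inv f p.1 v m) (h.inv f' q.1 v m)]
    module
  · rw [rl_add k q.1 t.1 m, rl_add k q.1 t.1 (h.inv f p.1 v m),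
      rl_add' h p.1 (k.inv g q.1 v m) (k.inv g' t.1 v m)]
    module
  · obtain ⟨a, b, c, h1, h2, h3, h4, h5⟩ := N352.K.ex_wdg t
    obtain ⟨ε, p, q⟩ := Metric.isOpen_iff.1 (open_Wdg a b c) x h4
    obtain ⟨δ, p', q'⟩ := Metric.isOpen_iff.1 (open_Wdg b a c) y h5
    exact ⟨min ε δ, lt_min p p', fun f g i j => sub_eq_zero.2 (r a b c f g h1 h2 h3
      ⟨i.1, i.2.1, i.2.2.trans ((Metric.ball_subset_ball (min_le_left _ _)).trans q)⟩
      ⟨j.1, j.2.1, j.2.2.trans ((Metric.ball_subset_ball (min_le_right _ _)).trans q')⟩ v m)⟩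

/-- transitivity of locality follows from the case of opposite wedges -/
theorem trans_wd (r : ∀ C C' a b y f g, RelLoc S P.dom C → RelLoc S P.dom C' → Dh.IsNull a →
    Dh.IsNull b → Dh.mdot a b = 1 → Dh.In (Dh.Wdg a b y) f → Dh.In (Dh.Wdg b a y) g →
    ∀ v ∈ P.dom, (Dh.Par K P.dom 1 C → C f (C' g v) = C' g (C f v)) ∧
      (Dh.Par K P.dom (-1) C → Dh.Par K P.dom (-1) C' → C f (C' g v) = -C' g (C f v))) :
    Trans S P.dom := fun C C' f g h k i j s v m =>
  ⟨fun p => (loc_wd h k 1 (fun a b y f g h1 h2 h3 i j v m =>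
      ((r C C' a b y f g h k h1 h2 h3 i j v m).1 p).trans (one_smul _ _).symm) i j s m).trans
      (one_smul _ _),
    fun p q => (loc_wd h k (-1) (fun a b y f g h1 h2 h3 i j v m =>
      ((r C C' a b y f g h k h1 h2 h3 i j v m).2 p q).trans (neg_one_smul _ _).symm) i j s m).trans
      (neg_one_smul _ _)⟩

end

end Vale.Agent.N352.H
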