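import Vale.Agent.N352.H.Hy

/-!
# N352, block H: the conclusions
-/

set_option linter.all false

open Filter Topology
open scoped ContDiff

namespace Vale.Agent.N352.H

open P352.GF
open UniformSpace (Completion)

noncomputable section

variable {H : Type*} [NormedAddCommGroup H] [InnerProductSpace ℂ H] [CompleteSpace H]
  {K : Dh.Frame H} {E : Type*} [NormedAddCommGroup E] [InnerProductSpace ℂ E]

theorem u1 (K : Dh.Frame H) (v : H) : K.U 1 one 0 v = v := by
  have e : ∀ x, sim 1 one 0 x = x := fun x => funext fun n => by simp [sim, one, bas]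
  have k : K.U 1 one 0 (K.U 1 one 0 v) = K.U (1 * 1) (fun m => sim 1 one 0 (one m))
    (sim 1 one 0 0) v := (K.mul 1 one 0 1 one 0 one_pos one_pos lor1 lor1).resolve_right
      (fun k => k.1 rfl) v
  simp only [e, mul_one] at k
  exact (isoU K one_pos lor1 0).injective k

theorem usur (S : Dh.Theory K) {s L} (hs : 0 < s) (hL : IsLor L) (a) {v} (m : v ∈ S.dom) :
    ∃ z ∈ S.dom, K.U s L a z = v := by
  let g : P352X.EB.Sg := ⟨s, L, a, hs, hL⟩
  have n := S.rep _ _ (g.inv.act 0) g.inv.hs g.inv.hL v m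
  have e : K.U (s * g.inv.s) (fun m => sim 1 L 0 (g.inv.L m)) (sim s L a (g.inv.act 0)) v = v := by
    rw [show s * g.inv.s = 1 from mul_inv_cancel₀ hs.ne',
      show (fun m => sim 1 L 0 (g.inv.L m)) = one from P352.H755.linv_id hL,
      show sim s L a (g.inv.act 0) = 0 from g.act_inv 0, u1]
  rcases K.mul s L a _ _ (g.inv.act 0) hs g.inv.hs hL g.inv.hL with k | ⟨-, -, k⟩
  · exact ⟨_, n, (k v).trans e⟩
  · exact ⟨_, S.gam _ n, (K.comm _ _ _ _ hs hL).trans ((congrArg _ ((k v).trans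
      (congrArg _ e))).trans (gam_gam K v))⟩

theorem ext_U (S : Dh.Theory K) {s L} (hs : 0 < s) (hL : IsLor L) (a) {x y : H}
    (h : ∀ v ∈ S.dom, inner ℂ (K.U s L a v) x = inner ℂ (K.U s L a v) y) : x = y :=
  ext_D S fun v m => by
    obtain ⟨z, n, rfl⟩ := usur S hs hL a m
    exact h z n

theorem t_lin {f g : Fn} (c : ℂ) (p : IsTest f) (q : IsTest g) : IsTest fun x => f x + c * g x := by
  obtain ⟨f, rfl⟩ := p
  obtain ⟨g, rfl⟩ := q
  exact ⟨f + c • g, rfl⟩

theorem kz {X} (h : Dh.IsKil X) : Dz.IsKil X := have ⟨a, b, r, w, h, e⟩ := h; ⟨a, b, r, w, h, e⟩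

theorem kil_cd {X} (h : Dz.IsKil X) (n) : ContDiff ℝ ∞ (X n) :=
  have ⟨a, b, r, w, h, e⟩ := h
  P352.H755.contDiff_kil ⟨a, b, r, w, h, e⟩ n

theorem t_mul {u f : Fn} (c : ContDiff ℝ ∞ u) (t : Dz.In Set.univ f) : IsTest fun x => u x * f x :=
  (P352X.Ap.in_mul (O := Set.univ) c t).1

theorem kil_pd {X} (h : Dz.IsKil X) (m n) : ContDiff ℝ ∞ (pd m fun y => (X n y : ℂ)) :=
  P352X.Ap.smooth_pd (P352X.Ap.smooth_cx (kil_cd h n)) m

theorem kil_dvg {X} (h : Dz.IsKil X) : ContDiff ℝ ∞ (Dz.dvg X) :=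
  ContDiff.sum fun n _ => kil_pd h n n

theorem t_fold (α : List Ix) {f : Fn} (t : IsTest f) : IsTest (α.foldr pd f) := by
  induction α with
  | nil => exact t
  | cons m α k => exact t_pd m k

theorem desc_of {S : Dh.Theory K} {t : Ix → Ix → Fld H} {A : Fld H} {ι : Type} [Fintype ι]
    (e : ι → Bool) (k : ι → Dh.Rp) (d c : ι → ℂ) (α : ι → List Ix) (a : ∀ i, Fin (k i).dm)
    (P P' : ∀ i, Fin (k i).dm → Fld H) (p : ∀ i, Dh.Prim S t (e i) (k i) (d i) (P i) (P' i))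
    (x : ∀ f, IsTest f → ∀ v ∈ S.dom, A f v = ∑ i, c i • P i (a i) ((α i).foldr pd f) v) :
    Dh.Desc S t A :=
  let u := (Fintype.equivFin ι).symm
  ⟨_, fun i => e (u i), fun i => k (u i), fun i => d (u i), fun i => c (u i), fun i => α (u i),
    fun i => a (u i), fun i => P (u i), fun i => P' (u i), fun i => p (u i), fun f t v m =>
      (x f t v m).trans (u.sum_comp fun i => c i • P i (a i) ((α i).foldr pd f) v).symm⟩

open P352 P352R P352R.P P352X F in
/-- equal charges generate the same transformations -/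
theorem pg_same {Q : Theory E} {T t : Ix → Ix → Fld E} (l : ∀ m n f g (c : ℂ) v, IsTest f →
      IsTest g → t m n (fun x => f x + c * g x) v = t m n f v + c • t m n g v)
    (u : ∀ m n v, Continuous fun g => t m n (ev g) v) (h : Dz.Same Q T t)
    (hT : ∀ m n, Q.fld (T m n)) (p : Dz.PGen Q T) : Dz.PGen Q t := by
  intro L a X p1 p2 p3 p4 F B f z hF hB hf
  obtain ⟨c, w, hw, e⟩ := Z.isSim p1 p3 p4
  refine (p L a X p1 p2 p3 p4 F B f z hF hB hf).imp fun _ => And.imp_left fun q => q.congr' ?_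
  filter_upwards [h F B f hF hB hf, eventually_gt_atTop 0] with r k hr
  have g := cut_test hF hr
  have x : ∀ {s : Ix → Ix → Fld E}, (∀ v, Dz.cur s X (F r) v = ∑ n, (((eta n * c n : ℝ) : ℂ) •
      s o n (F r) v + ∑ m, ((eta n * w m n : ℝ) : ℂ) • s o n (Dz.xg m (F r)) v)) →
      Dz.cm (Dz.cur s X) (F r) B f Q.vac =
        ∑ n, ((eta n * c n : ℝ) : ℂ) • Dz.cm (s o n) (F r) B f Q.vac + ∑ n, ∑ m,
          ((eta n * w m n : ℝ) : ℂ) • Dz.cm (s o n) (Dz.xg m (F r)) B f Q.vac := fun a => by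
    simp only [Dz.cm, a, show ∀ u, B f u = fm hB hf.1 u from fun _ => rfl, map_sum, map_add,
      map_smul, smul_sub, Finset.sum_add_distrib, Finset.sum_sub_distrib]
    abel
  rw [x (K.cur_exp l u e g), x (K.cur_exp (fun m n f g z v => Q.lin _ f g z v (hT m n))
    (fun m n v => Q.cont _ v (hT m n)) e g)]
  simp only [fun n => (k o n Q.vac).1]
  congr 2
  have y : ∀ a : Ix → Ix → E, ∑ n, ∑ m, ((eta n * w m n : ℝ) : ℂ) • a m n =
      (2⁻¹ : ℂ) • ∑ n, ∑ m, ((eta n * w m n : ℝ) : ℂ) • (a m n - a n m) := fun a => by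
    have : ∑ n, ∑ m, ((eta n * w m n : ℝ) : ℂ) • a n m =
        -∑ n, ∑ m, ((eta n * w m n : ℝ) : ℂ) • a m n := by
      rw [Finset.sum_comm]
      simp only [← Finset.sum_neg_distrib, ← neg_smul]
      exact Finset.sum_congr rfl fun n _ => Finset.sum_congr rfl fun m _ => by
        rw [hw, Complex.ofReal_neg]
    simp only [smul_sub, Finset.sum_sub_distrib, this]
    module
  rw [y fun m n => Dz.cm (t o n) (Dz.xg m (F r)) B f Q.vac,
    y fun m n => Dz.cm (T o n) (Dz.xg m (F r)) B f Q.vac]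
  simp only [fun l n => (k l n Q.vac).2]

theorem cf_pg {Q : Theory E} {G} {T t : Ix → Ix → Fld E} (k : Dz.Cf Q G T t)
    (hT : ∀ m n, Q.fld (T m n)) : Dz.PGen Q T → Dz.PGen Q t := by
  obtain ⟨r, p, q, a, -, d⟩ := k.prim
  have x : ∀ m n, ∃ R, Dz.IsLoc Q (fun _ => True) (Dz.hil (t m n)) R := fun m n => by
    obtain ⟨i, e⟩ := a.2 (m, n)
    cases e
    exact d.loc i
  choose R x using x
  exact pg_same (fun m n f g c v a b => Completion.coe_injective E <| by
      rw [Completion.coe_add, Completion.coe_smul]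
      exact (x m n).linf f g c v a b)
    (fun m n v => (Completion.isUniformEmbedding_coe E).isEmbedding.continuous_iff.2
      ((x m n).cont v)) k.same hT

/-- `P` is `R`, seen through `φ` and `j` -/
def Eqj (j : Completion E ≃ₗᵢ[ℂ] H) (φ : E →ₗᵢ[ℂ] H) (P : Fld H) (R : Fn → E → Completion E) :
    Prop := ∀ f v, IsTest f → P f (φ v) = j (R f v)

/-- the push forward of a local field -/
def upj (j : Completion E ≃ₗᵢ[ℂ] H) (φ : E →ₗᵢ[ℂ] H) (R : Fn → E → Completion E) : Fld H :=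
  lift φ fun f v => j (R f v)

theorem upj_eq (j : Completion E ≃ₗᵢ[ℂ] H) (φ : E →ₗᵢ[ℂ] H) (R : Fn → E → Completion E) :
    Eqj j φ (upj j φ R) R := fun _ _ _ => lift_eq _ _ _ _

namespace Rl

variable {S : Dh.Theory K} {Q : Theory E} {φ : E →ₗᵢ[ℂ] H} {G : E → E} (h : Rl S Q φ G)
  {A A' : Fld H} {B B' : Fld E} {T t : Ix → Ix → Fld H} {T' t' : Ix → Ix → Fld E}
include h

theorem same (x : ∀ m n, Eqv φ (T m n) (T' m n)) (y : ∀ m n, Eqv φ (t m n) (t' m n)) :
    Dh.Same S T t ↔ Dz.Same Q T' t' := by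
  have k : ∀ {F A B f}, IsCutoff F → Eqv φ A B → IsTest f → ((∀ᶠ R in atTop, ∀ l n, ∀ v ∈ S.dom,
      Dh.cm (t o n) (F R) A f v = Dh.cm (T o n) (F R) A f v ∧
      Dh.cm (t o n) (Dz.xg l (F R)) A f v - Dh.cm (t o l) (Dz.xg n (F R)) A f v =
        Dh.cm (T o n) (Dz.xg l (F R)) A f v - Dh.cm (T o l) (Dz.xg n (F R)) A f v) ↔
      ∀ᶠ R in atTop, ∀ l n v, Dz.cm (t' o n) (F R) B f v = Dz.cm (T' o n) (F R) B f v ∧
      Dz.cm (t' o n) (Dz.xg l (F R)) B f v - Dz.cm (t' o l) (Dz.xg n (F R)) B f v =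
        Dz.cm (T' o n) (Dz.xg l (F R)) B f v - Dz.cm (T' o l) (Dz.xg n (F R)) B f v) :=
    fun {F A B f} p a s => eventually_congr ((Tn.cut_cpt p).mono fun R r => by
      have g : ∀ l, IsTest (Dz.xg l (F R)) := fun l =>
        t_mul (P352X.Ap.smooth_cx (contDiff_apply ℝ ℝ l)) r
      simp only [h.all, Dh.cm, Dz.cm, a f _ s, x _ _ _ _ r.1, y _ _ _ _ r.1, x _ _ _ _ (g _),
        y _ _ _ _ (g _), ← map_sub, φ.injective.eq_iff])
  refine ⟨fun g F B f p b s => ?_, fun g F A f p a s => ?_⟩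
  · obtain ⟨A, a, e⟩ := h.up B b
    exact (k p e s.1).1 (g F A f p a s)
  · obtain ⟨B, b, e⟩ := h.dn A a
    exact (k p e s.1).2 (g F B f p b s)

theorem mon {Y Y' : H → H} (m : Dh.Mon S Y Y') :
    ∃ Z Z', Dz.Al Q Z Z' ∧ (∀ v, Y (φ v) = φ (Z v)) ∧ ∀ v, Y' (φ v) = φ (Z' v) := by
  induction m with
  | unit => exact ⟨_, _, .unit, fun _ => rfl, fun _ => rfl⟩
  | mul A A' f X X' s d p _ k =>
    obtain ⟨Z, Z', z, u, w⟩ := k
    obtain ⟨B, b, a⟩ := h.dn A s
    obtain ⟨B', b', d', a'⟩ := h.adj' s a d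
    exact ⟨_, _, .mul B B' f Z Z' b b' d' p z, fun v => (congrArg _ (u v)).trans (a f _ p.1),
      fun v => (congrArg _ (a' _ v (t_bar p.1))).trans (w _)⟩

theorem form (y : ∀ m n, Eqv φ (t m n) (t' m n)) {S' L'} (s : Dz.Stress Q S') (l : Q.IsScalar L' 2)
    (e : t' = improve S' L') : ∃ R L, Dh.Stress S R ∧ Dh.Scalar S L 2 ∧
      ∀ m n f, IsTest f → ∀ v ∈ S.dom, t m n f v = Dh.improve R L m n f v := by
  choose R r x using fun m n => h.up _ (Q.bose_fld _ (s.bos m n))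
  obtain ⟨L, a, b⟩ := h.up _ (Q.bose_fld _ l.1)
  refine ⟨R, L, ((h.stress x).2 ⟨s, r⟩).1, h.scalar_up b a l, fun m n f p => h.all.2 fun v => ?_⟩
  have b' : ∀ k l, L (Dh.pd k (Dh.pd l f)) (φ v) = φ (L' (pd k (pd l f)) v) := fun k l =>
    b _ v (t_pd k (t_pd l p))
  rw [y m n f v p, e]
  simp only [Dh.improve, improve, map_sub, map_add, map_smul, map_sum, x m n f v p, b']
  rfl

variable {j : Completion E ≃ₗᵢ[ℂ] H} (c : ∀ v : E, j v = φ v) {P P' : Fld H}
  {R R' : Fn → E → Completion E}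
include c

theorem ip (v : E) (x : Completion E) : inner ℂ (φ v) (j x) = inner ℂ (v : Completion E) x := by
  rw [← c, j.inner_map_map]

theorem ip' (v : E) (x : Completion E) : inner ℂ (j x) (φ v) = inner ℂ x (v : Completion E) := by
  rw [← c, j.inner_map_map]

theorem hil (a : Eqv φ A B) : Eqj j φ A (Dz.hil B) := fun f v t => (a f v t).trans (c _).symm

theorem adj_up (a : Eqj j φ P R) (b : Eqj j φ P' R') (k : ∀ f (v w : E), IsTest f →
    inner ℂ (R f v) (w : Completion E) = inner ℂ (v : Completion E) (R' (bar f) w)) :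
    Dh.Adj S.dom P P' := fun f t => h.all.2 fun v => h.all.2 fun w => by
  rw [a f v t, b (Dh.bar f) w (t_bar t), h.ip c, h.ip' c]
  exact k f v w t

theorem loc_up {p : Fld H → Prop} {q : Fld E → Prop}
    (u : ∀ C, S.fld C → p C → ∃ C', Q.fld C' ∧ Eqv φ C C' ∧ q C') (a : Eqj j φ P R)
    (b : Eqj j φ P' R') (l : Dz.IsLoc Q q R R') : Dh.Loc S p P P' where
  lin f g z r s := h.all.2 fun v => by
    rw [a _ v (t_lin z r s), a f v r, a g v s, l.linf f g z v r s, map_add, map_smul]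
  cont := h.all.2 fun v => (j.continuous.comp (l.cont v)).congr fun g => (a _ v ⟨g, rfl⟩).symm
  adj := h.adj_up c a b l.adj
  transl y f r := h.all.2 fun v => ext_U S one_pos lor1 y <| h.all.2 fun z => by
    refine Eq.trans ?_ (K.unitary 1 one y _ _ one_pos lor1).symm
    refine Eq.trans ?_ (congrArg _ (a _ v (t_sim one_pos lor1 y r))).symm
    refine (congrArg₂ _ (h.U _ _ _ _ one_pos lor1) ((congrArg _ (h.U _ _ _ _ one_pos lor1)).trans
      (a f _ r))).trans ?_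
    rw [h.ip c, h.ip c, l.transl y f v z r]
  loc C C' f g s d w r r' e := h.all.2 fun v => h.all.2 fun z => by
    obtain ⟨B, b, x, y⟩ := u C s w
    obtain ⟨B', b', d', x'⟩ := h.adj' s x d
    rw [x' (Dh.bar g) z (t_bar r'), x g v r', a f _ r, a f _ r, h.ip c, h.ip c]
    exact l.loc B B' f g v z b b' d' y r r' e

theorem comm (y : ∀ m n, Eqv φ (t m n) (t' m n)) {X} (x : Dz.IsKil X) {w v : E}
    {a a' : Completion E} {b b' : H} {z z' : ℂ} (k : Dz.Comm t' X w v a a' z) (e : b = j a)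
    (e' : b' = j a') (s : z' = z) : Dh.Comm t X (φ w) (φ v) b b' z' := fun F p =>
  s ▸ (k F p).congr' ((Tn.cut_cpt p).mono fun R r => by
    simp only [e, e', h.cur y (X := fun x n => X n x) (kil_cd x) _ _ r, h.ip c, h.ip' c])

theorem act_up (y : ∀ m n, Eqv φ (t m n) (t' m n)) (k : Dz.ConfAct Q t') (s : S.fld A)
    (d : Dh.Adj S.dom A A') : Dh.Act S t A A' := by
  obtain ⟨B, b, a, o⟩ := h.rep s
  obtain ⟨B', b', d', a'⟩ := h.adj' s a d
  obtain ⟨M, M', N, N', p, q, r⟩ := k.1 B B' b b' d'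
  have u : ∀ C, S.fld C → Dh.Bose S A ∨ Dh.Bose S C →
      ∃ C', Q.fld C' ∧ Eqv φ C C' ∧ (Q.bose B ∨ Q.bose C') := fun C s w =>
    have ⟨C', x, y, z⟩ := h.rep s
    ⟨C', x, y, w.imp o z⟩
  refine ⟨fun m n => upj j φ (M m n), fun m n => upj j φ (M' m n), fun m => upj j φ (N m),
    fun m => upj j φ (N' m), fun m n => h.loc_up c u (upj_eq _ _ _) (upj_eq _ _ _) (p m n),
    fun m => h.loc_up c u (upj_eq _ _ _) (upj_eq _ _ _) (q m),
    fun X f x g => h.all.2 fun w => h.all.2 fun v => h.comm c y (kz x) (r X f w v (kz x) g)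
      (h.hil c a f v g.1) (h.hil c a' _ w (t_bar g.1)) (congrArg _ ?_)⟩
  have e : ∀ n, A (Dh.pd n fun x => X n x * f x) (φ v) =
      j (Dz.hil B (pd n fun x => X n x * f x) v) := fun n =>
    h.hil c a _ v (t_pd n (t_mul (P352X.Ap.smooth_cx (kil_cd (kz x) n)) g))
  rw [← h.ip c]
  simp only [map_sub, map_sum, upj, lift_eq, e]
  rfl

theorem prim_up (y : ∀ m n, Eqv φ (t m n) (t' m n)) {e k d} {P P' : Fin k.dm → Fld H}
    {R R' : Fin k.dm → Fn → E → Completion E} (a : ∀ i, Eqj j φ (P i) (R i))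
    (b : ∀ i, Eqj j φ (P' i) (R' i)) (p : Dz.PrimS Q G t' e k d R R') :
    Dh.Prim S t e (rh k) d P P' where
  loc i := have ⟨N, n⟩ := p.loc i
    ⟨upj j φ N, h.loc_up c (fun C s _ => (h.dn C s).imp fun _ x => ⟨x.1, x.2, trivial⟩)
      (fun f v r => (congrArg _ (by cases e; rfl; exact h.gam v)).trans (a i f _ r))
      (upj_eq _ _ _) n⟩
  adj i := h.adj_up c (a i) (b i) (p.adj i)
  cov i s L f hs l r := h.all.2 fun v => ext_U S hs l 0 <| h.all.2 fun z => by
    refine (congrArg₂ _ (h.U _ _ _ _ hs l) ((congrArg _ (h.U _ _ _ _ hs l)).trans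
      (a i f _ r))).trans ?_
    rw [h.ip c, p.cov i s L f v z hs l r, inner_sum]
    refine Finset.sum_congr rfl fun n _ => ?_
    rw [inner_smul_right, K.unitary s L 0 _ _ hs l, ← h.ip c]
    exact congrArg₂ _ rfl (congrArg _ (a n _ v (t_sim hs l 0 r)).symm)
  act X i f x g := h.all.2 fun w => h.all.2 fun v => by
    refine h.comm c y (kz x) ((p.act X (kz x)).1 i f w v g) (a i f v g.1) (b i _ w (t_bar g.1))
      (congrArg _ ?_)
    have e1 : ∀ n, P i (Dh.pd n fun x => X n x * f x) (φ v) =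
        j (R i (pd n fun x => X n x * f x) v) := fun n =>
      a i _ v (t_pd n (t_mul (P352X.Ap.smooth_cx (kil_cd (kz x) n)) g))
    have e2 : P i (fun x => Dh.dvg X x * f x) (φ v) = j (R i (fun x => Dz.dvg X x * f x) v) :=
      a i _ v (t_mul (kil_dvg (kz x)) g)
    have e3 : ∀ i m n, P i (fun x => (Dh.pd m (fun y => (X n y : ℂ)) x -
        Dh.one m n * Dh.dvg X x / 4) * f x) (φ v) = j (R i (fun x =>
          (pd m (fun y => (X n y : ℂ)) x - one m n * Dz.dvg X x / 4) * f x) v) := fun i m n =>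
      a i _ v (t_mul ((kil_pd (kz x) m n).sub
        ((contDiff_const.mul (kil_dvg (kz x))).div_const _)) g)
    rw [← h.ip c]
    simp only [map_sub, map_add, map_sum, map_smul, e1, e2, e3]

theorem desc_up (y : ∀ m n, Eqv φ (t m n) (t' m n)) (k : Dz.Desc Q G t') (s : S.fld A) :
    Dh.Desc S t A := by
  obtain ⟨B, b, a⟩ := h.dn A s
  obtain ⟨n, e, C, p, q⟩ := k B b
  have u : ∀ i, ∃ (n : ℕ) (k : Fin n → Dz.Rp) (d c : Fin n → ℂ) (α : Fin n → List Ix)
      (a : ∀ i, Fin (k i).dm) (P P' : ∀ i, Fin (k i).dm → Fn → E → Completion E),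
      (∀ l, Dz.PrimS Q G t' (e i) (k l) (d l) (P l) (P' l)) ∧ ∀ f v, IsTest f →
        Dz.hil (C i) f v = ∑ l, c l • P l (a l) ((α l).foldr pd f) v := fun i =>
    have ⟨n, k, d, c, α, a, P, P', x, y⟩ := p i
    ⟨n, k, d, c, α, a, P, P', x, y⟩
  choose m k d z α i P P' u w using u
  refine desc_of (ι := Σ l, Fin (m l)) (fun l => e l.1) (fun l => rh (k l.1 l.2))
    (fun l => d l.1 l.2) (fun l => z l.1 l.2) (fun l => α l.1 l.2) (fun l => i l.1 l.2)
    (fun l b => upj j φ (P l.1 l.2 b)) (fun l b => upj j φ (P' l.1 l.2 b))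
    (fun l => h.prim_up c y (fun _ => upj_eq _ _ _) (fun _ => upj_eq _ _ _) (u l.1 l.2))
    fun f r => h.all.2 fun v => ?_
  rw [a f v r, q f v r, map_sum, Fintype.sum_sigma]
  refine Finset.sum_congr rfl fun l _ => (c _).symm.trans ((congrArg j (w l f v r)).trans ?_)
  simp only [map_sum, map_smul, upj, lift_eq]

/-- **the conclusion** -/
theorem conf_up (x : ∀ m n, Eqv φ (T m n) (T' m n)) (y : ∀ m n, Eqv φ (t m n) (t' m n))
    (b : ∀ m n, Q.fld (T' m n)) (k : Dz.Cf Q G T' t') : Dh.Conf S T t where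
  form := have ⟨_, _, s, l, e⟩ := k.form; h.form y s l e
  symm m n f r := h.all.2 fun v => by rw [y m n f v r, y n m f v r, k.symm m n f v r]
  conserved n f r := h.all.2 fun v => (Finset.sum_congr rfl fun m _ => y m n _ v (t_pd m r)).trans
    ((map_sum φ _ _).symm.trans ((congrArg φ (k.conserved n f v r)).trans (map_zero φ)))
  traceless f r := h.all.2 fun v => by rw [h.tr y f v r, k.traceless f v r, map_zero]
  same := (h.same x y).2 k.same
  poincare p := (h.pgen y).2 (cf_pg k b ((h.pgen x).1 p))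
  act A B := h.act_up c y k.act
  ward X Y Y' p m := by
    obtain ⟨Z, Z', z, u, w⟩ := h.mon m
    rw [h.vac]
    exact h.comm c y (kz p) (k.ward X Z Z' (kz p) z) ((u _).trans (c _).symm)
      ((w _).trans (c _).symm) rfl
  prim := have ⟨r, p, q, a, b, d⟩ := k.prim
    ⟨rh r, p, q, a, b, h.prim_up c y (fun _ => h.hil c (y _ _)) (fun _ => h.hil c (y _ _)) d⟩
  desc l A := h.desc_up c y (k.desc (h.fin.1 l).1 (h.fin.1 l).2)

end Rl

end

end Vale.Agent.N352.H
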