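import Vale.Agent.N352.H.Base

/-!
# N352, block H: stress tensors, charges, multiplets and scaling laws
-/

set_option linter.all false

open Filter Topology
open scoped ContDiff

namespace Vale.Agent.N352.H

open P352.GF
open UniformSpace (Completion)

noncomputable section

variable {H : Type*} [NormedAddCommGroup H] [InnerProductSpace ℂ H] [CompleteSpace H]
  {K : Dh.Frame H} {E : Type*} [NormedAddCommGroup E] [InnerProductSpace ℂ E]

theorem t_cur {X : V → V} (x : ∀ n, ContDiff ℝ ∞ fun y => X y n) {g : Fn} (t : Dz.In Set.univ g)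
    (n) : IsTest fun y => (eta n : ℂ) * X y n * g y :=
  (P352X.Ap.in_mul (O := Set.univ) (u := fun y => (eta n : ℂ) * X y n)
    (contDiff_const.mul (Complex.ofRealCLM.contDiff.comp (x n))) t).1

theorem sim_cd {X : V → V} (x : Dn.IsSim 0 X) (n) : ContDiff ℝ ∞ fun y => X y n := by
  obtain ⟨a, w, -, e⟩ := x
  simp only [e]
  fun_prop

/-- spins -/
@[reducible] def rz (k : Dh.Rp) : Dz.Rp := ⟨k.dm, k.ρ, k.sp, k.id, k.mul, k.der⟩

/-- spins -/
@[reducible] def rh (k : Dz.Rp) : Dh.Rp := ⟨k.dm, k.ρ, k.sp, k.id, k.mul, k.der⟩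

/-- the components of Bose fields can be taken Bose -/
theorem fsl_of {Q : Theory E} {G : E → E} (g : Dz.Gr Q G) {A : Fld E} {F : Finset (ℂ × ℕ)}
    {B : ℂ × ℕ → Fld E} (b : ∀ p, Q.fld (B p)) (l : ∀ (s : ℝ) f v, 0 < s → IsTest f →
      A f (Q.U s one 0 v) = ∑ p ∈ F, ((s : ℂ) ^ (4 - p.1) * (Real.log s : ℂ) ^ p.2) •
        Q.U s one 0 (B p (fun x => f (sim s one 0 x)) v)) : ∃ B, Dz.Scl Q A F B := by
  by_cases a : Q.bose A
  · choose C C' c c' x using fun p => g.split _ (b p)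
    refine ⟨C, fun p => ⟨Q.bose_fld _ (c p), fun _ => c p⟩, fun s f v hs t => ?_⟩
    have t' := t_sim hs lor1 0 t
    have k := l s f (G v) hs t
    rw [g.GU _ _ _ _ hs lor1, g.bos A f _ a t] at k
    replace k := (g.inv _).symm.trans ((congrArg G k).trans (map_sum (gm g) _ _))
    have u := P352.U_add (Q := Q) hs lor1 0
    refine smul_right_injective E (two_ne_zero (α := ℂ)) ?_
    show (2 : ℂ) • _ = (2 : ℂ) • _
    rw [two_smul, two_smul, ← Finset.sum_add_distrib]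
    refine (congrArg₂ _ (l s f v hs t) k).trans (Finset.sum_add_distrib.symm.trans
      (Finset.sum_congr rfl fun p _ => ?_))
    rw [map_smul, ← smul_add, ← smul_add]
    refine congrArg _ ?_
    show _ + G _ = _
    have n : ∀ w, G (-w) = -G w := (gm g).map_neg
    rw [← g.GU _ _ _ _ hs lor1, ← u, ← u, x p _ _ t', x p _ _ t', g.bos _ _ _ (c p) t',
      (c' p).2 _ _ t', g_add g, n, g.inv, g.inv]
    exact congrArg _ (by abel)
  · exact ⟨B, fun p => ⟨b p, fun k => (a k).elim⟩, l⟩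

namespace Rl

variable {S : Dh.Theory K} {Q : Theory E} {φ : E →ₗᵢ[ℂ] H} {G : E → E} (h : Rl S Q φ G)
  {A : Fld H} {B : Fld E} {T : Ix → Ix → Fld H} {T' : Ix → Ix → Fld E} {J : Ix → Fld H}
  {J' : Ix → Fld E}
include h

theorem tr (x : ∀ m n, Eqv φ (T m n) (T' m n)) : Eqv φ (Dh.tr T) (tr T') := fun f v t => by
  simp only [Dh.tr, P352.GF.tr, map_sum, map_smul, x _ _ f v t]
  rfl

theorem stress (x : ∀ m n, Eqv φ (T m n) (T' m n)) :
    Dh.Stress S T ∧ (∀ m n, Q.bose (T' m n)) ↔ Dz.Stress Q T' ∧ ∀ m n, S.fld (T m n) := by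
  have cv : ∀ m n L a f v, IsLor L → IsTest f → (T m n f (K.U 1 L a (φ v)) = ∑ k, ∑ l,
      (L k m * L l n : ℂ) • K.U 1 L a (T k l (fun x => f (sim 1 L a x)) (φ v)) ↔
      T' m n f (Q.U 1 L a v) = ∑ k, ∑ l, (L k m * L l n : ℂ) •
        Q.U 1 L a (T' k l (fun x => f (sim 1 L a x)) v)) := fun m n L a f v l t => by
    simp only [x _ _ _ _ t, x _ _ _ _ (t_sim one_pos l a t), h.U _ _ _ _ one_pos l, ← map_smul,
      ← map_sum, φ.injective.eq_iff]
  have cs : ∀ n f v, IsTest f → (∑ m, T m n (pd m f) (φ v) = 0 ↔ ∑ m, T' m n (pd m f) v = 0) :=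
    fun n f v t => by simp only [x _ _ _ _ (t_pd _ t), ← map_sum, map_eq_zero_iff φ φ.injective]
  exact ⟨fun ⟨s, b⟩ => ⟨⟨b, fun m n f v t => φ.injective (by
      rw [← x _ _ f v t, ← x _ _ f v t, s.symm m n f t _ (h.mem v)]),
      fun m n => (h.adj (x m n) (x m n)).1 (s.herm m n),
      fun m n L a f v l t => (cv m n L a f v l t).1 (s.cov m n L a f l t _ (h.mem v)),
      fun n f v t => (cs n f v t).1 (s.conserved n f t _ (h.mem v))⟩, fun m n => (s.bose m n).1⟩,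
    fun ⟨s, b⟩ => ⟨⟨fun m n => h.bose_up (s.bos m n) (b m n) (x m n),
      fun m n => (h.adj (x m n) (x m n)).2 (s.herm m n),
      fun m n f t => h.all.2 fun v => by rw [x _ _ f v t, x _ _ f v t, s.symm m n f v t],
      fun m n L a f l t => h.all.2 fun v => (cv m n L a f v l t).2 (s.cov m n L a f v l t),
      fun n f t => h.all.2 fun v => (cs n f v t).2 (s.conserved n f v t)⟩, s.bos⟩⟩

theorem scalar_up (x : Eqv φ A B) (s : S.fld A) {d} (b : Q.IsScalar B d) : Dh.Scalar S A d :=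
  ⟨h.bose_up b.1 s x, (h.adj x x).2 b.2.1, fun r L a f hs l t => h.all.2 fun v => by
    refine (congrArg _ (h.U _ _ _ _ hs l)).trans ((x f _ t).trans ?_)
    rw [b.2.2 r L a f v hs l t, map_smul, ← h.U _ _ _ _ hs l, ← x _ v (t_sim hs l a t)]
    rfl⟩

theorem gen {u : ℝ → H → H} {u' : ℝ → E → E} {j : Fld H} {j' : Fld E}
    (e : ∀ t v, u t (φ v) = φ (u' t v)) (c : ∀ g v, Dz.In Set.univ g → j g (φ v) = φ (j' g v)) :
    Dh.Gen S u j ↔ Dz.Gen Q u' j' := by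
  have k : ∀ {F A B f w c}, IsCutoff F → Eqv φ A B → IsTest f →
      (Tendsto (fun R => inner ℂ (φ w) (Dh.cm j (F R) A f K.Ω)) atTop (𝓝 c) ∧
        HasDerivAt (fun e => inner ℂ (φ w) (u e (A f K.Ω))) (Complex.I * c) 0 ↔
      Tendsto (fun R => inner ℂ w (Dz.cm j' (F R) B f Q.vac)) atTop (𝓝 c) ∧
        HasDerivAt (fun e => inner ℂ w (u' e (B f Q.vac))) (Complex.I * c) 0) :=
    fun {F A B f w c'} p x t => and_congr (tendsto_congr' ((Tn.cut_cpt p).mono fun R r => by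
      simp only [Dh.cm, Dz.cm, h.vac, x f _ t, c _ _ r, ← map_sub, φ.inner_map_map]))
      (by simp only [h.vac, x f _ t, e, φ.inner_map_map])
  refine ⟨fun g F B f w p b t => ?_, fun g F A f p s t => h.all.2 fun w => ?_⟩
  · obtain ⟨A, s, x⟩ := h.up B b
    exact (g F A f p s t _ (h.mem w)).imp fun _ => (k p x t.1).1
  · obtain ⟨B, b, x⟩ := h.dn A s
    exact (g F B f w p b t).imp fun _ => (k p x t.1).2

theorem cur (x : ∀ m n, Eqv φ (T m n) (T' m n)) {X : V → V} (c : ∀ n, ContDiff ℝ ∞ fun y => X y n)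
    (g v) (t : Dz.In Set.univ g) : Dh.cur T X g (φ v) = φ (Dz.cur T' X g v) := by
  rw [Dz.cur, map_sum]
  exact Finset.sum_congr rfl fun n _ => x _ _ _ v (t_cur c t n)

theorem pgen (x : ∀ m n, Eqv φ (T m n) (T' m n)) : Dh.PGen S T ↔ Dz.PGen Q T' :=
  forall₃_congr fun L a X => forall₄_congr fun p _ q r =>
    h.gen (fun t v => h.U _ _ _ _ one_pos (q t)) (h.cur x (sim_cd (Z.isSim p q r)))

theorem vir (x : ∀ m n, Eqv φ (T m n) (T' m n)) (y : ∀ m, Eqv φ (J m) (J' m)) :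
    Dh.Vir S T J ∧ (∀ m, Q.bose (J' m)) ↔ Dz.Vir Q T' J' ∧ ∀ m, S.fld (J m) := by
  have d : ∀ f v, IsTest f → (Dh.tr T f (φ v) = -∑ m, J m (pd m f) (φ v) ↔
      P352.GF.tr T' f v = -∑ m, J' m (pd m f) v) := fun f v t => by
    simp only [h.tr x f v t, y _ _ _ (t_pd _ t), ← map_sum, ← map_neg, φ.injective.eq_iff]
  have g := h.gen (u := fun e => K.U (Real.exp e) one 0) (u' := fun e => Q.U (Real.exp e) one 0)
    (j := fun g v => Dh.cur T (fun x => x) g v - J o g v)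
    (j' := fun g v => Dz.cur T' (fun x => x) g v - J' o g v)
    (fun t v => h.U _ _ _ _ (Real.exp_pos t) lor1) fun g v t => by
      rw [map_sub, h.cur x (fun n => by fun_prop) g v t, y _ _ _ t.1]
  exact ⟨fun ⟨s, b⟩ => ⟨⟨b, fun f v t => (d f v t).1 (s.div f t _ (h.mem v)), g.1 s.gen⟩,
      fun m => (s.bose m).1⟩,
    fun ⟨s, b⟩ => ⟨⟨fun m => h.bose_up (s.bos m) (b m) (y m),
      fun f t => h.all.2 fun v => (d f v t).2 (s.div f v t), g.2 s.gen⟩, s.bos⟩⟩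

theorem ml {k : Dz.Rp} {Φ : Fin k.dm → Fld H} {Ψ : Fin k.dm → Fld E} (x : ∀ b, Eqv φ (Φ b) (Ψ b))
    (b L f v) (l : IsLor L) (t : IsTest f) : Φ b f (K.U 1 L 0 (φ v)) =
      ∑ c, k.ρ L c b • K.U 1 L 0 (Φ c (fun x => f (sim 1 L 0 x)) (φ v)) ↔ Ψ b f (Q.U 1 L 0 v) =
      ∑ c, k.ρ L c b • Q.U 1 L 0 (Ψ c (fun x => f (sim 1 L 0 x)) v) := by
  simp only [x _ _ _ t, x _ _ _ (t_sim one_pos l 0 t), h.U _ _ _ _ one_pos l, ← map_smul,
    ← map_sum, φ.injective.eq_iff]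

theorem law {F : Finset (ℂ × ℕ)} {C : ℂ × ℕ → Fld H} {C' : ℂ × ℕ → Fld E} (x : Eqv φ A B)
    (y : ∀ p, Eqv φ (C p) (C' p)) (s : ℝ) (f v) (hs : 0 < s) (t : IsTest f) :
    A f (K.U s one 0 (φ v)) = ∑ p ∈ F, ((s : ℂ) ^ (4 - p.1) * (Real.log s : ℂ) ^ p.2) •
        K.U s one 0 (C p (fun x => f (sim s one 0 x)) (φ v)) ↔
      B f (Q.U s one 0 v) = ∑ p ∈ F, ((s : ℂ) ^ (4 - p.1) * (Real.log s : ℂ) ^ p.2) •
        Q.U s one 0 (C' p (fun x => f (sim s one 0 x)) v) := by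
  simp only [x _ _ t, y _ _ _ (t_sim hs lor1 0 t), h.U _ _ _ _ hs lor1, ← map_smul,
    ← map_sum, φ.injective.eq_iff]

theorem fin : Dh.Fin' S ↔ Dz.MfA Q ∧ Dz.FSL Q := by
  refine ⟨fun k => ⟨fun B b => ?_, fun B b => ?_⟩, fun ⟨m, l⟩ A s => ?_⟩
  · obtain ⟨A, s, x⟩ := h.up B b
    obtain ⟨n, r, Φ, a, p, q, e⟩ := (k A s).1
    choose Ψ y z using fun i c => h.dn _ (p i c)
    exact ⟨n, fun i => Ψ i (a i), fun i => ⟨rz (r i), Ψ i, a i, ⟨y i, fun c L f v l t =>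
      (h.ml (k := rz (r i)) (z i) c L f v l t).1 (q i c L f l t _ (h.mem v))⟩, rfl⟩,
      fun f v t => φ.injective (by
        rw [← x f v t, e f t _ (h.mem v), map_sum]
        exact Finset.sum_congr rfl fun i _ => z _ _ f v t)⟩
  · obtain ⟨A, s, x⟩ := h.up B b
    obtain ⟨F, C, p, q⟩ := (k A s).2
    choose C' y z using fun i => h.dn _ (p i)
    exact ⟨F, fsl_of h.gr y fun r f v hs t => (h.law x z r f v hs t).1 (q r f hs t _ (h.mem v))⟩
  obtain ⟨B, b, x⟩ := h.dn A s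
  obtain ⟨n, C, p, e⟩ := m B b
  choose r Ψ a p q using p
  choose Φ y z using fun i c => h.up _ ((p i).1 c)
  obtain ⟨F, C', u⟩ := l B b
  choose C'' y' z' using fun i => h.up _ (u.mem i).1
  exact ⟨⟨n, fun i => rh (r i), Φ, a, y, fun i c L f l t => h.all.2 fun v =>
      (h.ml (z i) c L f v l t).2 ((p i).2 c L f v l t), fun f t => h.all.2 fun v => by
        rw [x f v t, e f v t, map_sum]
        exact Finset.sum_congr rfl fun i _ => by rw [q i, z _ _ f v t]⟩,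
    ⟨F, C'', y', fun r f hs t => h.all.2 fun v => (h.law x z' r f v hs t).2 (u.law r f v hs t)⟩⟩

end Rl

end

end Vale.Agent.N352.H
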