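import Vale.Agent.N352.H.Base

/-!
# N352, block H: nets
-/

set_option linter.all false

open Filter Topology

namespace Vale.Agent.N352.H

open P352.GF F
open UniformSpace (Completion)

noncomputable section

universe u

variable {H : Type*} [NormedAddCommGroup H] [InnerProductSpace ℂ H] [CompleteSpace H]
  {K : Dh.Frame H} {E : Type u} [NormedAddCommGroup E] [InnerProductSpace ℂ E]
  {D : Type*} [NormedAddCommGroup D] [InnerProductSpace ℂ D]

section out

variable {j : Completion D ≃ₗᵢ[ℂ] H} {N : Set V → VonNeumannAlgebra H}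
  {N' : Set V → VonNeumannAlgebra (Completion D)}

variable (j) in
/-- a net on `H` gives a net on the completion -/
theorem ex_dn (N : Set V → VonNeumannAlgebra H) : ∃ N' : Set V → VonNeumannAlgebra (Completion D),
    ∀ O X, X ∈ N' O ↔ j.conjStarAlgEquiv X ∈ N O :=
  ⟨fun O => pv j.conjStarAlgEquiv (N O), fun _ _ => mem_pv _ _⟩

variable (j) in
/-- a net on the completion gives a net on `H` -/
theorem ex_up (N' : Set V → VonNeumannAlgebra (Completion D)) : ∃ N : Set V → VonNeumannAlgebra H,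
    ∀ O X, X ∈ N' O ↔ j.conjStarAlgEquiv X ∈ N O :=
  ⟨fun O => pv j.conjStarAlgEquiv.symm (N' O), fun _ _ => by
    rw [mem_pv, StarAlgEquiv.symm_apply_apply]⟩

variable (n : ∀ O X, X ∈ N' O ↔ j.conjStarAlgEquiv X ∈ N O)
include n

theorem com {O X} : X ∈ (N' O).commutant ↔ j.conjStarAlgEquiv X ∈ (N O).commutant := by
  simp only [VonNeumannAlgebra.mem_commutant_iff, n]
  exact pv0 _ (N O : Set (H →L[ℂ] H))

theorem out {O Z} : Dh.Out N O (j.conjStarAlgEquiv Z) ↔ Dz.Out N' O Z :=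
  ⟨fun k => ⟨fun Y y => j.conjStarAlgEquiv.injective <| (p_mul _ _ _).trans <|
      (k.1 _ fun a b z O' p q r s t u => (com n).1 (y a b z O' p q r s t u)).trans
        (p_mul _ _ _).symm⟩,
    fun k => ⟨fun Y y => by
      obtain ⟨Y, rfl⟩ := p_sur j.conjStarAlgEquiv Y
      rw [← p_mul, ← p_mul, k.1 Y fun a b z O' p q r s t u => (com n).2 (y a b z O' p q r s t u)]⟩⟩

end out

namespace Rl

variable {S : Dh.Theory K} {Q : Theory E} {φ : E →ₗᵢ[ℂ] H} {G : E → E} (h : Rl S Q φ G)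
include h

section wk

variable {k : E → Completion D} {j : Completion D ≃ₗᵢ[ℂ] H} (c : ∀ v, j (k v) = φ v) {O : Set V}
include c

theorem wk {Y} : Dh.Wk S O (j.conjStarAlgEquiv Y) ↔ Dz.Wk Q k O Y :=
  ⟨fun x => ⟨fun B B' f v w b d i p q => by
      obtain ⟨A, s, a⟩ := h.up B b
      have := x.1 A _ f _ _ s ((h.adj a (up_eqv φ B')).2 d) i (h.cyc_up p) (h.cyc_up q)
      rwa [up_eq, a f v i.1, ← c, ← c, ← c, ← c, cj, cj, j.inner_map_map, j.inner_map_map] at this⟩,
    fun x => ⟨fun A A' f v w s d i p q => by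
      obtain ⟨v, rfl, p'⟩ := h.cyc_dn p
      obtain ⟨w, rfl, q'⟩ := h.cyc_dn q
      obtain ⟨B, b, a⟩ := h.dn A s
      obtain ⟨B', -, e, a'⟩ := h.adj' s a d
      rw [a f v i.1, a' (Dh.bar f) w (t_bar i.1), ← c, ← c, ← c, ← c, cj, cj, j.inner_map_map,
        j.inner_map_map]
      exact x.1 B B' f v w b e i p' q'⟩⟩

theorem tw {Γ X} (g : j.conjStarAlgEquiv Γ = K.Γ) : Dh.Tw S O (j.conjStarAlgEquiv X) ↔
    Dz.Wk Q k O (X + Γ * X * Γ) ∧ Dz.Wk Q k O ((X - Γ * X * Γ) * Γ) := by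
  simp only [← h.wk c, p_mul, p_add, p_sub, g]
  exact ⟨fun x => ⟨x.1, x.2⟩, fun x => ⟨x.1, x.2⟩⟩

end wk

variable {j : Completion E ≃ₗᵢ[ℂ] H} (c : ∀ v : E, j v = φ v) {N : Set V → VonNeumannAlgebra H}
  {N' : Set V → VonNeumannAlgebra (Completion E)}
  (n : ∀ O X, X ∈ N' O ↔ j.conjStarAlgEquiv X ∈ N O)
include c n

theorem aff : Dh.Aff S N ↔ Dz.Aff Q (↑) N' :=
  ⟨fun x => ⟨fun O o Y y => (h.wk c).1 (x.1 O o _ ((com n).1 y))⟩, fun x => ⟨fun O o Y y => by
    obtain ⟨Y, rfl⟩ := p_sur j.conjStarAlgEquiv Y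
    exact (h.wk c).2 (x.1 O o _ ((com n).2 y))⟩⟩

theorem rec_up (r : Dz.RecN Q N') : Dh.Rec S N := ⟨fun l a b d e => by
  obtain ⟨B, p, q⟩ := r.1 (fun f => j.symm (l f))
    (fun f g z s t => by rw [a f g z s t, map_add, map_smul]) (j.symm.continuous.comp b)
    (fun s L y f hs hL t => j.injective <| by
      rw [map_smul, h.ue c hs hL, j.apply_symm_apply, j.apply_symm_apply]
      exact d s L y f hs hL t) fun O f Z i z => by
      rw [← j.inner_map_map, ← j.inner_map_map (j.symm _), ← cj, ← cj, h.om c, j.apply_symm_apply,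
        j.apply_symm_apply]
      exact e O f _ i ((out n).2 z)
  obtain ⟨A, s, x⟩ := h.up B (Q.bose_fld B p)
  exact ⟨A, s, fun f t => by
    rw [h.vac, x f _ t, ← c, ← j.apply_symm_apply (l f), ← q f t]
    rfl⟩⟩

variable {Γ : Completion E →L[ℂ] Completion E} (g : j.conjStarAlgEquiv Γ = K.Γ)
include g

theorem net : Dh.Net K N ↔ Dz.Net Q G Γ N' :=
  ⟨fun x => ⟨(h.cg c).1 g, fun O O' a b s X m => (n _ _).2 (x.1 O O' a b s _ ((n _ _).1 m)),
      fun s L y O o X m hs hL => by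
        obtain ⟨Y, a, b⟩ := x.2 s L y O o _ ((n _ _).1 m) hs hL
        obtain ⟨Y, rfl⟩ := p_sur j.conjStarAlgEquiv Y
        exact ⟨Y, (n _ _).2 a, fun z => j.injective (by
          rw [← cj, h.ue c hs hL, b, cj, h.ue c hs hL])⟩,
      fun O o X m => (n _ _).2 (by simpa only [p_mul, g] using x.3 O o _ ((n _ _).1 m)),
      fun O O' a b s X m => by
        simpa only [com n, p_mul, p_add, p_sub, g] using x.4 O O' a b s _ ((n _ _).1 m)⟩,
    fun x => ⟨fun O O' a b s X m => by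
        obtain ⟨X, rfl⟩ := p_sur j.conjStarAlgEquiv X
        exact (n _ _).1 (x.2 O O' a b s _ ((n _ _).2 m)),
      fun s L y O o X m hs hL => by
        obtain ⟨X, rfl⟩ := p_sur j.conjStarAlgEquiv X
        obtain ⟨Y, a, b⟩ := x.3 s L y O o _ ((n _ _).2 m) hs hL
        refine ⟨_, (n _ _).1 a, fun z => ?_⟩
        obtain ⟨z, rfl⟩ := j.surjective z
        rw [← h.ue c hs hL, cj, b, cj, h.ue c hs hL],
      fun O o X m => by
        obtain ⟨X, rfl⟩ := p_sur j.conjStarAlgEquiv X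
        simpa only [n, p_mul, g] using x.4 O o _ ((n _ _).2 m),
      fun O O' a b s X m => by
        obtain ⟨X, rfl⟩ := p_sur j.conjStarAlgEquiv X
        simpa only [com n, p_mul, p_add, p_sub, g] using x.5 O O' a b s _ ((n _ _).2 m)⟩⟩

theorem rel : Dh.Rel S N ↔ Dz.Rel Q Γ N' := by
  have e : j ⁻¹' {z | ∃ O, Dh.Reg O ∧ ∃ X ∈ N O, z = X K.Ω} =
      {z | ∃ O, Dz.Reg O ∧ ∃ X ∈ N' O, z = X (Dz.om Q)} := Set.ext fun z =>
    exists_congr fun O => and_congr_right fun _ => ⟨fun ⟨X, a, b⟩ => by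
      obtain ⟨X, rfl⟩ := p_sur j.conjStarAlgEquiv X
      exact ⟨X, (n _ _).2 a, j.injective (by rw [b, ← h.om c, cj])⟩,
      fun ⟨X, a, b⟩ => ⟨_, (n _ _).1 a, by rw [b, ← h.om c, cj]⟩⟩
  have d := j.toHomeomorph.isOpenQuotientMap.dense_preimage_iff
    (s := {z | ∃ O, Dh.Reg O ∧ ∃ X ∈ N O, z = X K.Ω})
  exact ⟨fun x => ⟨e ▸ d.2 x.1, fun O O' a b s X m =>
      (h.tw c g).1 (x.2 O O' a b s _ ((n _ _).1 m))⟩,
    fun x => ⟨d.1 (e ▸ x.1 :), fun O O' a b s X m => by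
      obtain ⟨X, rfl⟩ := p_sur j.conjStarAlgEquiv X
      exact (h.tw c g).2 (x.2 O O' a b s _ ((n _ _).2 m))⟩⟩

theorem rec_dn (r : Dh.Rec S N) : Dk.Mak Q Γ N' Q .id := ⟨fun _ _ _ R k G' e L x hL => by
  have hf := R.bose_fld _ hL.1
  have gx := (h.cg c).1 g
  have s : ∀ a b, inner ℂ (Γ a) b = inner ℂ a (Γ b) := fun a b => by
    rw [← j.inner_map_map, ← j.inner_map_map a, ← cj, ← cj, g, gam_inner]
  have o : Γ (Dn.om Q) = Dn.om Q := (gx _).trans (congrArg _ h.even)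
  have ev : ∀ f, IsTest f → Γ (k (L f R.vac)) = k (L f R.vac) := fun f a => by
    rw [← x.G, ← x.bose L f _ hL.1 a, k.injective ((x.G _).trans (x.vac ▸ o))]
  obtain ⟨A, s1, s2⟩ := r.1 (fun f => j (k (L f R.vac)))
    (fun f g c a b => by rw [R.lin L f g c _ hf a b, map_add, map_smul, map_add, map_smul])
    (j.continuous.comp (k.continuous.comp (R.cont L _ hf))) (fun s M a f hs hM b => by
      have := hL.2.2 s M a f R.vac hs hM b
      rw [R.U_vac _ _ _ hs hM] at this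
      rw [this, map_smul, map_smul, x.U _ _ _ _ hs hM, ← h.ue c hs hM]
      norm_num
      rfl) fun O f Z a z => by
    obtain ⟨Z, rfl⟩ := p_sur j.conjStarAlgEquiv Z
    have := (x.rel O Z ((out n).1 z).1).1.1 L L f R.vac R.vac hf hL.2.1 a
    simp only [x.vac, ContinuousLinearMap.add_apply, ContinuousLinearMap.mul_apply,
      inner_add_right, ← s, o, ev f a.1, ev _ (t_bar a.1), ← two_mul] at this
    rw [← h.om c, cj, cj, j.inner_map_map, j.inner_map_map]
    exact (mul_left_cancel₀ two_ne_zero this).symm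
  obtain ⟨B, b, a⟩ := h.dn A s1
  obtain ⟨C, C', p, q, w⟩ := h.gr.split B b
  refine ⟨C, p, fun f t => Eq.trans ?_ (congrFun (Completion.map_id (α := E)) _).symm⟩
  have u : ((C f Q.vac + C' f Q.vac : E) : Completion E) = k (L f R.vac) := j.injective <| by
    rw [c, ← w f _ t, ← a f _ t, ← h.vac, s2 f t]
  have v := ev f t
  have q' := q.2 f Q.vac t
  rw [← u, gx, g_add h.gr, ← h.gr.3 C f _ p t, h.even] at v
  rw [h.even, ← neg_eq_iff_eq_neg] at q'
  have z : (2 : ℂ) • C' f Q.vac = 0 := by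
    rw [two_smul, add_eq_zero_iff_neg_eq, q']
    exact add_left_cancel (Completion.coe_injective E v)
  rw [(smul_eq_zero.1 z).resolve_left two_ne_zero, add_zero] at u
  exact u⟩

end Rl

end

end Vale.Agent.N352.H
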