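import Vale.Agent.N352.H.Th
import Vale.Agent.N352.H.Hy
import Vale.Agent.N352.H.Nt

/-!
# N352, block H: countably many fields
-/

set_option linter.all false

open Filter Topology

namespace Vale.Agent.N352.H

open P352.GF
open UniformSpace (Completion)

noncomputable section

variable {H : Type*} [NormedAddCommGroup H] [InnerProductSpace ℂ H] [CompleteSpace H]
  {K : Dh.Frame H} {E : Type*} [NormedAddCommGroup E] [InnerProductSpace ℂ E]

open Classical in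
/-- normalized fields -/
def nz (B : Fld E) : Fld E := fun f => if IsTest f then B f else 0

theorem nz_eq (B : Fld E) {f} (t : IsTest f) : nz B f = B f := if_pos t

/-- normalized fields -/
def Nz (B : Fld E) : Prop := ∀ f, ¬IsTest f → B f = 0

theorem nz_nz (B : Fld E) : Nz (nz B) := fun _ t => if_neg t

theorem Eqv.nz {φ : E →ₗᵢ[ℂ] H} {A B} (a : Eqv φ A B) : Eqv φ A (nz B) := fun f v t => by
  rw [nz_eq B t, a f v t]

/-- the normalized fields of a theory -/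
def sub (Q : Theory E) (k : ∀ B, Q.fld B → Q.fld (nz B)) : Theory E where
  vac := Q.vac
  fld B := Q.fld B ∧ Nz B
  bose B := Q.bose B ∧ Nz B
  U := Q.U
  norm_vac := Q.norm_vac
  cyclic M a b := Q.cyclic M a fun B f v p t m => nz_eq B t ▸ b _ f v ⟨k B p, nz_nz B⟩ t m
  lin B f g c v p := Q.lin B f g c v p.1
  cont B v p := Q.cont B v p.1
  adj B p := have ⟨C, c, a⟩ := Q.adj B p.1
    ⟨nz C, ⟨k C c, nz_nz C⟩, fun f v w t => by rw [nz_eq C (t_bar t)]; exact a f v w t⟩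
  bose_fld B p := ⟨Q.bose_fld B p.1, p.2⟩
  loc B C f g v p q := Q.loc B C f g v p.1 q.1
  U_inner := Q.U_inner
  U_vac := Q.U_vac
  transl B a f v p := Q.transl B a f v p.1
  spectrum := Q.spectrum

/-- pairs of corresponding fields -/
def pr (φ : E →ₗᵢ[ℂ] H) : Submodule ℂ (Fld H × Fld E) where
  carrier := {p | Eqv φ p.1 p.2 ∧ Nz p.2}
  add_mem' := fun a b => ⟨fun f v t => (congrArg₂ (· + ·) (a.1 f v t) (b.1 f v t)).trans
    (φ.map_add _ _).symm, fun f t => (congrArg₂ (· + ·) (a.2 f t) (b.2 f t)).trans (add_zero _)⟩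
  zero_mem' := ⟨fun _ _ _ => φ.map_zero.symm, fun _ _ => rfl⟩
  smul_mem' := fun c _ a => ⟨fun f v t => (congrArg (c • ·) (a.1 f v t)).trans
    (φ.map_smul _ _).symm, fun f t => (congrArg (c • ·) (a.2 f t)).trans (smul_zero _)⟩

variable {S : Dh.Theory K} {Q : Theory E} {φ : E →ₗᵢ[ℂ] H} {G : E → E}

theorem Rl.sub (h : Rl S Q φ G) (k : ∀ B, Q.fld B → Q.fld (nz B))
    (k' : ∀ B, Q.bose B → Q.bose (nz B)) : Rl S (sub Q k) φ G where
  toLk := h.toLk
  up B b := h.up B b.1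
  dn A s := have ⟨B, b, a⟩ := h.dn A s; ⟨nz B, ⟨k B b, nz_nz B⟩, a.nz⟩
  gr := ⟨h.gr.1, h.gr.2, fun B f v b => h.gr.3 B f v b.1, fun B b =>
    have ⟨C, C', c, c', e⟩ := h.gr.4 B b.1
    ⟨nz C, nz C', ⟨k' C c, nz_nz C⟩, ⟨⟨k C' c'.1, nz_nz C'⟩, fun f v t => by
      rw [nz_eq C' t, c'.2 f v t]⟩, fun f v t => by rw [nz_eq C t, nz_eq C' t, e f v t]⟩,
    fun B C f g v p q => h.gr.5 B C f g v ⟨p.1.1, p.2⟩ ⟨q.1.1, q.2⟩, h.gr.6, h.gr.7⟩

theorem Rl.eqv (h : Rl S Q φ G) {A A' B} (e : Dh.Eq' S A A') : Eqv φ A B ↔ Eqv φ A' B :=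
  forall₃_congr fun f v t => by rw [e f t _ (h.mem v)]

/-- **countably many fields** have finite spin and finite scaling support -/
theorem cnt_dn {T} (s : Dh.Stress S T) (p : Dh.PGen S T) (c : Dh.Cnt S) : Dh.Fin' S := by
  obtain ⟨Q, G, h⟩ := ex_rl S
  let φ := S.dom.subtypeₗᵢ
  have R := (th_rl h.toLk).sub (fun B b => b.imp fun A a => ⟨a.1, a.2.nz⟩)
    fun B b => b.imp fun A a => ⟨a.1, a.2.nz⟩
  have g := F.gr.1 (Z.gr.1 R.gr)
  choose T' a x b using fun m n => R.rep (s.1 m n).1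
  obtain ⟨M, m, u, w⟩ := c.1
  choose B y z using fun A : M => (u A (Submodule.subset_span A.2)).elim fun C k =>
    (R.dn C k.1).imp fun B e => And.intro e.1 ((R.eqv k.2).2 e.2)
  have := m.to_subtype
  let W := Submodule.span ℂ (Set.range fun A : M => ((A : Fld H), B A))
  have l : W ≤ pr φ := Submodule.span_le.2 (by
    rintro _ ⟨A, rfl⟩
    exact ⟨z A, (y A).2⟩)
  have e1 : W.map (LinearMap.fst ℂ _ _) = Submodule.span ℂ M := by
    rw [Submodule.map_span, ← Set.range_comp]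
    exact congrArg _ Subtype.range_coe
  have e2 : W.map (LinearMap.snd ℂ _ _) = Submodule.span ℂ (Set.range B) := by
    rw [Submodule.map_span, ← Set.range_comp]
    rfl
  have q : ∀ C, (C ∈ Submodule.span ℂ (Set.range B)) ↔
      (∃ A, S.fld A ∧ Eqv φ A C) ∧ Nz C := fun C => by
    rw [← e2]
    refine ⟨?_, fun ⟨⟨A, s, a⟩, n⟩ => ?_⟩
    · rintro ⟨r, i, rfl⟩
      obtain ⟨A, s, a⟩ := u r.1 (e1.le ⟨r, i, rfl⟩)
      exact ⟨⟨A, s, (R.eqv a).1 (l i).1⟩, (l i).2⟩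
    obtain ⟨_, o, j⟩ := w A s
    obtain ⟨r, i, rfl⟩ := e1.ge o
    refine ⟨r, i, funext fun f => ?_⟩
    by_cases t : IsTest f
    · exact funext fun v => φ.injective ((((R.eqv j).1 (l i).1) f v t).symm.trans (a f v t))
    · exact ((l i).2 f t).trans (n f t).symm
  have k := F.cnt_of g R.even a (Z.pgen.1 ((R.pgen x).1 p)) ⟨⟨_, Set.countable_range B,
    fun C => (q C).symm⟩, fun C i => ?_, fun r L C hs hL ⟨⟨A, s, a⟩, _⟩ => ?_, fun v => ?_⟩
  · exact R.fin.2 ⟨Z.mfa.2 (F.mfa.2 k.1), Z.fsl.2 (F.fsl.2 k.2)⟩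
  · obtain ⟨⟨A, s, a⟩, n⟩ := (q C).1 (Submodule.span_le.2 (fun C i => (q C).2
      ⟨i.1.imp fun A a => ⟨a.1.1, a.2⟩, i.2⟩) i)
    refine ⟨⟨A, ⟨s, (R.par a).2 fun f v t => .trans ?_ (one_smul ℂ _).symm⟩, a⟩, n⟩
    clear a n
    induction i using Submodule.span_induction with
    | mem C i => exact R.gr.3 C f v i t
    | zero => exact (gm R.gr).map_zero.symm
    | add _ _ _ _ a b => exact (congrArg₂ (· + ·) a b).trans (g_add R.gr _ _).symm
    | smul c _ _ a => exact (congrArg (c • ·) a).trans (g_smul R.gr _ _).symm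
  · obtain ⟨A', s', e⟩ := c.2 r L A hs hL s
    obtain ⟨C', i, a'⟩ := R.dn A' s'
    have e' := fun f v t => φ.injective ((R.U r L 0 _ hs hL).symm.trans ((congrArg _
      (a _ v (t_sim hs hL 0 t)).symm).trans ((e f t _ (R.mem v)).trans
        ((congrArg _ (R.U r L 0 v hs hL)).trans (a' f _ t)))))
    refine ⟨C', i, fun o => ⟨⟨A', ⟨s', (R.par a').2 fun f v t => ?_⟩, a'⟩, i.2⟩, e'⟩
    obtain ⟨v, rfl⟩ := P352R.Lg.sur g hs hL 0 v
    rw [one_smul, ← R.gr.6 _ _ _ _ hs hL, ← e' f _ t, ← e' f _ t,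
      R.gr.3 C _ v o (t_sim hs hL 0 t), R.gr.6 _ _ _ _ hs hL]
  · refine φ.isometry.isEmbedding.isInducing.continuousAt_iff.2 ((c.3 (φ v)).congr ?_)
    exact (lt_mem_nhds one_pos).mono fun r hs => R.U r one 0 v hs lor1

theorem Rl.cnt_up (h : Rl S Q φ G) (c : Dn.CntF Q) : Dh.Cnt S := by
  obtain ⟨M, m, u⟩ := c.1
  let ψ : Fld E →ₗ[ℂ] Fld H := ⟨⟨N352.H.up φ, fun _ _ => funext₂ fun _ _ => φ.map_add _ _⟩,
    fun _ _ => funext₂ fun _ _ => φ.map_smul _ _⟩
  have e := Submodule.map_span ψ M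
  refine ⟨⟨ψ '' M, m.image _, fun A a => ?_, fun A s => ?_⟩, fun r L A hs hL s => ?_, fun v => ?_⟩
  · obtain ⟨B, b, rfl⟩ := e.ge a
    obtain ⟨A, s, a⟩ := h.up B ((u B).2 b)
    exact ⟨A, s, fun f t => h.all.2 fun v => (up_eq φ B f v).trans (a f v t).symm⟩
  · obtain ⟨B, b, a⟩ := h.dn A s
    exact ⟨_, e.le ⟨B, (u B).1 b, rfl⟩, fun f t => h.all.2 fun v =>
      (up_eq φ B f v).trans (a f v t).symm⟩
  · obtain ⟨B, b, a⟩ := h.dn A s
    obtain ⟨C, i, -, k⟩ := c.3 r L B hs hL b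
    obtain ⟨A', s', a'⟩ := h.up C i
    exact ⟨A', s', fun f t => h.all.2 fun v => (congrArg _ (a _ v (t_sim hs hL 0 t))).trans
      ((h.U r L 0 _ hs hL).trans ((congrArg φ (k f v t)).trans ((a' f _ t).symm.trans
        (congrArg _ (h.U r L 0 v hs hL).symm))))⟩
  refine continuousAt_of_locally_uniform_approx_of_continuousAt fun t i => ?_
  obtain ⟨ε, p, q⟩ := Metric.mem_uniformity_dist.1 i
  obtain ⟨w, x⟩ := Metric.denseRange_iff.1 h.dr v ε p
  exact ⟨_, lt_mem_nhds one_pos, fun r => φ (Q.U r one 0 w),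
    φ.continuous.continuousAt.comp (c.4 w), fun r hs => q ((congrArg _
      (h.U r one 0 w hs lor1).symm).trans_lt (((isoU K hs lor1 0).dist_eq _ _).trans_lt x))⟩

theorem Rl.uniq (h : Rl S Q φ G) {j : Completion E ≃ₗᵢ[ℂ] H} (c : ∀ v : E, j v = φ v) :
    Dh.Uniq K ↔ Dn.UVac Q :=
  ⟨fun k z a => (k (j z) fun y => (h.ue c one_pos lor1 y z).symm.trans (congrArg j (a y))).imp
      fun r e => j.injective (by rw [e, ← h.om c, map_smul]; rfl),
    fun k z a => by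
      obtain ⟨z, rfl⟩ := j.surjective z
      exact (k z fun y => j.injective ((h.ue c one_pos lor1 y z).trans (a y))).imp
        fun r e => by rw [e, ← h.om c, map_smul]; rfl⟩

end

end Vale.Agent.N352.H
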