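import Vale.Agent.N352.H.Top
import Vale.Agent.N352.K.Top4

/-!
# N352, block H: the extension, with the charges on all local fields
-/

set_option linter.all false

open Filter Topology

namespace Vale.Agent.N352.H

open P352.GF F
open UniformSpace (Completion)

noncomputable section

universe u

section gen

variable {H : Type*} [NormedAddCommGroup H] [InnerProductSpace ℂ H] [CompleteSpace H]
  {K : Dh.Frame H} {S P R : Dh.Theory K} {T A S' t : Ix → Ix → Fld H} {B : Fld H} {f : Fn} {v : H}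

/-- a smeared field is linear on the domain -/
theorem fld_lin (b : S.fld B) (i : IsTest f) (c : ℂ) {v w : H} (m : v ∈ S.dom) (n : w ∈ S.dom) :
    B f (v + c • w) = B f v + c • B f w := by
  obtain ⟨B', -, d⟩ := S.adj B b
  refine ext_D S fun z k => ?_
  rw [← inner_conj_symm, d f i _ (add_mem m (S.dom.smul_mem c n)) z k, ← inner_conj_symm z,
    inner_add_left, inner_add_left, inner_smul_left, inner_smul_left, d f i v m z k, d f i w n z k]

/-- the vectors generated from the vacuum -/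
def cyH (S : Dh.Theory K) : Submodule ℂ H where
  carrier := {v | Dh.Cyc S v}
  add_mem' a b M m := add_mem (a M m) (b M m)
  zero_mem' M _ := zero_mem M
  smul_mem' c _ a M m := M.smul_mem c (a M m)

theorem cyc_om : Dh.Cyc S K.Ω := fun _ m => m.1

theorem cyc_fl (c : Dh.Cyc S v) (b : S.fld B) (i : IsTest f) : Dh.Cyc S (B f v) :=
  fun M m => m.2 B f b i v (c M m)

theorem cyc_sub (x : ∀ B, S.fld B → ∃ C, P.fld C ∧ Dh.Agr S B C) (c : Dh.Cyc S v) : Dh.Cyc P v :=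
  (c (cyH S ⊓ cyH P) ⟨⟨cyc_om, cyc_om⟩, fun B f b i v m => ⟨cyc_fl m.1 b i, by
    obtain ⟨C, p, q⟩ := x B b
    exact q f v i m.1 ▸ cyc_fl m.2 p i⟩⟩).2

theorem cyc_dom (x : ∀ B, S.fld B → ∃ C, P.fld C ∧ Dh.Agr S B C) (c : Dh.Cyc S v) : v ∈ P.dom :=
  cyc_sub x c _ P.inv

/-- **the charges on the fields of `S`** -/
theorem chg (h : Dh.Same S T A) (a : ∀ m n, S.fld (A m n)) (g : ∀ m n, Dh.Agr S (A m n) (S' m n))
    (k : Dh.Same R S' t) (d : ∀ v, Dh.Cyc S v → v ∈ R.dom) (F B C f) (hF : Dh.IsCutoff F)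
    (b : S.fld B) (c : R.fld C) (x : Dh.Agr S B C) (i : Dh.In Set.univ f) :
    ∀ᶠ r in atTop, ∀ l n v, Dh.Cyc S v →
      Dh.cm (t Dh.o n) (F r) C f v = Dh.cm (T Dh.o n) (F r) B f v ∧
      Dh.cm (t Dh.o n) (Dh.xg l (F r)) C f v - Dh.cm (t Dh.o l) (Dh.xg n (F r)) C f v =
        Dh.cm (T Dh.o n) (Dh.xg l (F r)) B f v - Dh.cm (T Dh.o l) (Dh.xg n (F r)) B f v := by
  filter_upwards [h F B f hF b i, k F C f hF c i, Tn.cut_cpt hF] with r p q s l n v y
  have e : ∀ m n u, IsTest u → Dh.cm (S' m n) u C f v = Dh.cm (A m n) u B f v := fun m n u z => by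
    rw [Dh.cm, Dh.cm, x f v i.1 y, g m n u _ z (cyc_fl y b i.1), g m n u v z y,
      x f _ i.1 (cyc_fl y (a m n) z)]
  have z : ∀ l, IsTest (Dh.xg l (F r)) := fun l =>
    t_mul (P352X.Ap.smooth_cx (contDiff_apply ℝ ℝ l)) s
  rw [(q l n v (d v y)).1, (q l n v (d v y)).2, e _ _ _ s.1, e _ _ _ (z l), e _ _ _ (z n)]
  exact p l n v (y _ S.inv)

/-- the improved tensor preserves the domain -/
theorem t_dom (c : Dh.Conf P S' t) (m n) (i : IsTest f) (k : v ∈ P.dom) : t m n f v ∈ P.dom := by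
  obtain ⟨U, L, u, l, e⟩ := c.form
  have x := fun a b => P.inv.2 L _ l.1.1 (t_pd a (t_pd b i)) v k
  rw [e m n f i v k]
  exact sub_mem (add_mem (P.inv.2 _ f (u.1 m n).1 i v k) (P.dom.smul_mem _ (x m n)))
    (P.dom.smul_mem _ (sum_mem fun a _ => P.dom.smul_mem _ (x a a)))

/-- the improved tensor is even -/
theorem t_par (c : Dh.Conf P S' t) (m n) : Dh.Par K P.dom 1 (t m n) := ⟨fun f i v k => by
  obtain ⟨U, L, u, l, e⟩ := c.form
  have x : ∀ a b, L (Dh.pd a (Dh.pd b f)) (K.Γ v) = K.Γ (L (Dh.pd a (Dh.pd b f)) v) := fun a b =>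
    (l.1.2.par _ (t_pd a (t_pd b i)) v k).trans (one_smul _ _)
  rw [e m n f i v k, e m n f i _ (P.gam v k)]
  simp only [Dh.improve, map_sub, map_add, map_smul, map_sum, x, (u.1 m n).2.par f i v k,
    one_smul]⟩

/-- the improved tensor is a hermitian local field -/
theorem t_loc (c : Dh.Conf P S' t) (m n) : Dh.Loc P (fun _ => True) (t m n) (t m n) := by
  obtain ⟨k, p, q, a, -, d⟩ := c.prim
  obtain ⟨i, e⟩ := a.2 (m, n)
  cases e
  obtain ⟨_, l⟩ := d.loc i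
  exact ⟨l.1, l.2, d.adj i, l.4, l.5⟩

end gen

variable {H : Type u} [NormedAddCommGroup H] [InnerProductSpace ℂ H] [CompleteSpace H]
  {K : Dh.Frame H} {S : Dh.Theory K} {N : Set V → VonNeumannAlgebra H} {T : Ix → Ix → Fld H}

/-- **the conformal extension** -/
theorem ext5 (h : Dh.Hyp S T N) : ∃ A, Dh.Stress S A ∧ Dh.Same S T A ∧
    ∃ (P : Dh.Theory K) (S' t : Ix → Ix → Fld H), Dh.Ext S P N ∧
      (∀ m n, Dh.Agr S (A m n) (S' m n)) ∧ Dh.Stress P S' ∧ Dh.Fin' P ∧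
      (∀ v ∈ P.dom, Dh.Cyc P v) ∧ (∃ N', Dh.Net K N' ∧ Dh.Aff P N') ∧
      ∀ R : Dh.Theory K, R.dom = P.dom → (∀ A, P.fld A → R.fld A) →
        Dh.Conf R S' t ∧ Dh.PGen R S' := by
  obtain ⟨Q, G, T', Γ, N', R, g, n, x, y⟩ := hyp_dn h
  obtain ⟨s, a, b, E, _, _, P, k, G', e, t, Γ', N'', c, d, m, l, p, u, u', -, z⟩ := N352.K.ext5 y
  obtain ⟨S', R', q, f, w, v⟩ := R.ext_up (iso_coe _ R.dr) n g (Z.ext c)
  choose A o i using fun m n => R.up _ (Q.bose_fld _ (a.1 m n))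
  have j := fun m n => up_eqv ((iso _ R.dr).toLinearIsometry.comp k) (e (s m n))
  have d' := fun m n => P.bose_fld _ (d.1 m n)
  obtain ⟨M, r⟩ := ex_up (iso _ R'.dr) N''
  have c' := iso_coe _ R'.dr
  exact ⟨A, ((R.stress i).2 ⟨Z.st a, o⟩).1, (R.same x i).2 b, S', _, fun m n => up _ (t m n), q,
    fun m n => w _ _ (Q.bose_fld _ (a.1 m n)) (i m n),
    ((R'.stress j).2 ⟨Z.stress.2 d, fun m n => f _ (d' m n)⟩).1, R'.fin.2 ⟨Z.mfa.2 m, Z.fsl.2 l⟩,
    R'.all.2 fun v => R'.cyc_up fun M a b => p M a b ▸ Submodule.mem_top,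
    ⟨M, (R'.net c' r ((R'.cg c').2 u.1)).2 (Z.net.2 u), (R'.aff c' r).2 (Z.aff.2 u')⟩,
    fun R a b => have ⟨_, r, x⟩ := v R a b
      have z := z _ ⟨x.1, x.2, x.3, x.4⟩ (Z.gr.1 r.gr)
      ⟨r.conf_up (iso_coe _ r.dr) j (fun _ _ => up_eqv _ _) (fun m n => x.3 _ (d' m n)) (Z.cf z.1),
        (r.pgen j).2 (Z.pgen.2 z.2)⟩⟩

end

end Vale.Agent.N352.H
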