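import Vale.Agent.N352.H.Th
import Vale.Agent.N352.H.Hy
import Vale.Agent.N352.H.Nt

/-!
# N352, block H: field reconstruction for operators
-/

set_option linter.all false

namespace Vale.Agent.N352.H

open P352.GF F
open UniformSpace (Completion)

noncomputable section

universe u

variable {H : Type*} [NormedAddCommGroup H] [InnerProductSpace ℂ H] [CompleteSpace H]
  {K : Dh.Frame H} {S : Dh.Theory K} {N : Set V → VonNeumannAlgebra H}

theorem sc_even {L d} (l : Dh.Scalar S L d) {f} (t : IsTest f) : K.Γ (L f K.Ω) = L f K.Ω := by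
  have := l.bose.2.par f t _ S.inv.1
  rw [K.even, one_smul] at this
  exact this.symm

/-- reconstruction from the net gives reconstruction for operators -/
theorem rec_max (r : Dh.Rec S N) : Dh.Max S N := ⟨fun P L x l => r.1 (fun f => L f K.Ω)
  (fun f g c a b => P.lin L f g c l.1.1 a b _ P.inv.1) (strong P l.1.1 P.inv.1)
  (fun s M a f hs hM t => by
    have := l.cov s M a f hs hM t _ P.inv.1
    rw [K.vac _ _ _ hs hM] at this
    rw [this]
    norm_num) fun O f Z i z => by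
    have := (x.dual O Z z).1.1 L L f K.Ω K.Ω l.1.1 l.2 i (fun _ m => m.1) fun _ m => m.1
    simp only [ContinuousLinearMap.add_apply, ContinuousLinearMap.mul_apply, inner_add_right,
      ← gam_inner, K.even, sc_even l i.1, sc_even l (f := Dh.bar f) (t_bar i.1), ← two_mul] at this
    exact (mul_left_cancel₀ two_ne_zero this).symm⟩

variable {D : Type u} {E : Type*} [NormedAddCommGroup D] [InnerProductSpace ℂ D]
  [NormedAddCommGroup E] [InnerProductSpace ℂ E] {Q : Theory D} {φ : D →ₗᵢ[ℂ] H} {G : D → D}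
  {Γ : Completion D →L[ℂ] Completion D} {N' : Set V → VonNeumannAlgebra (Completion D)}
  {P : Theory E} {k : E →ₗᵢ[ℂ] Completion D} {G' : E → E} {e : Fld D → Fld E}

theorem ext_mem (x : Dz.Ext Q Γ N' P k G' e) {w : D} (c : Dz.Cyc Q w) : ∃ v, k v = w :=
  (c (N352.cy Q ⊓ (LinearMap.range k.toLinearMap).comap
    (Completion.toComplₗᵢ (𝕜 := ℂ)).toLinearMap) ⟨cyc_vac, _, x.vc⟩
    fun A f v s t ⟨a, v', b⟩ => ⟨Cyc.fld a s t, _, x.agree A f v' v s t a b⟩).2

variable (R : Rl S Q φ G) {j : Completion D ≃ₗᵢ[ℂ] H} (c : ∀ v : D, j v = φ v)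
  (n : ∀ O X, X ∈ N' O ↔ j.conjStarAlgEquiv X ∈ N O) (g : j.conjStarAlgEquiv Γ = K.Γ)
include R c n g

/-- the extension in the Hilbert space -/
theorem Rl.ext_up (x : Dz.Ext Q Γ N' P k G' e) :
    ∃ S' : Dh.Theory K, Rl S' P (j.toLinearIsometry.comp k) G' ∧ Dh.Ext S S' N ∧
      (∀ B, P.fld B → S'.fld (N352.H.up (j.toLinearIsometry.comp k) B)) ∧
      (∀ A B, Q.fld B → Eqv φ A B → Dh.Agr S A (N352.H.up (j.toLinearIsometry.comp k) (e B))) ∧
      ∀ R : Dh.Theory K, R.dom = S'.dom → (∀ A, S'.fld A → R.fld A) →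
        ∃ R', Rl R R' (j.toLinearIsometry.comp k) G' ∧ Dz.IsEnl P R' := by
  set ψ := j.toLinearIsometry.comp k
  have d : DenseRange ψ := j.surjective.denseRange.comp ((N352.G.X.cs_dense Q).mono (by
    rintro _ ⟨w, rfl⟩
    exact ext_mem x w.2)) j.continuous
  have q : Lk K (LinearMap.range ψ.toLinearMap) ψ P.vac G' P.U :=
    ⟨fun v => ⟨v, rfl⟩, fun _ m => m, ((congrArg j x.vc).trans (R.om c)).symm,
      fun v => (g ▸ cj j Γ _).trans (congrArg j (x.gr v).symm), fun s L a v hs hL =>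
        (R.ue c hs hL a _).symm.trans (congrArg j (x.rep s L a v hs hL).symm)⟩
  have R' := sys_rl q x.toGr d
  have a : ∀ A B, Q.fld B → Eqv φ A B → Dh.Agr S A (N352.H.up ψ (e B)) := fun A B b z f v t p => by
    obtain ⟨w, rfl, u⟩ := R.cyc_dn p
    obtain ⟨v, r⟩ := ext_mem x u
    rw [z f w t, ← c, ← c, ← r, ← x.agree B f v w b t u r]
    exact up_eq ψ _ f v
  refine ⟨_, R', ⟨fun A s => ?_, fun O Z z => ?_⟩, fun _ => sys_up q _ d, a, enl q _ d⟩
  · obtain ⟨B, b, z⟩ := R.dn A s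
    exact ⟨_, sys_up q _ d (x.mem B b), a A B b z⟩
  · obtain ⟨Z, rfl⟩ := p_sur j.conjStarAlgEquiv Z
    exact (R'.tw (fun _ => rfl) g).2 (x.rel O Z ((out n).1 z))

theorem Rl.max_dn (r : Dh.Max S N) : Dk.Mak Q Γ N' Q .id := ⟨fun _ _ _ P k G' e L x hL => by
  obtain ⟨S', R', y, z, -⟩ := R.ext_up c n g (Z.ext x)
  have l := R'.scalar_up (up_eqv _ L) (z _ (P.bose_fld _ hL.1)) hL
  obtain ⟨A, s, w⟩ := r.1 S' _ y l
  obtain ⟨B, b, a⟩ := R.dn A s
  obtain ⟨C, C', p, q, o⟩ := R.gr.split B b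
  refine ⟨C, p, fun f t => Eq.trans ?_ (congrFun (Completion.map_id (α := D)) _).symm⟩
  have u : φ (C f Q.vac + C' f Q.vac) = N352.H.up (j.toLinearIsometry.comp k) L f K.Ω := by
    rw [← o f _ t, ← a f _ t, ← R.vac, w f t]
  have v := sc_even l t
  have q' := q.2 f Q.vac t
  rw [← u, R.gam, g_add R.gr, ← R.gr.3 C f _ p t, R.even] at v
  rw [R.even, ← neg_eq_iff_eq_neg] at q'
  have z : (2 : ℂ) • C' f Q.vac = 0 := by
    rw [two_smul, add_eq_zero_iff_neg_eq, q']
    exact add_left_cancel (φ.injective v)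
  rw [(smul_eq_zero.1 z).resolve_left two_ne_zero, add_zero, R'.vac, up_eq, ← c] at u
  exact j.injective u⟩

end

end Vale.Agent.N352.H
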