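import Vale.Agent.N352.H.Cn
import Vale.Agent.N352.H.Mx
import Vale.Agent.N352.H.Cf

/-!
# N352, block H: the theorem in the Hilbert space formulation
-/

set_option linter.all false

namespace Vale.Agent.N352.H

open P352.GF F
open UniformSpace (Completion)

noncomputable section

universe u

variable {H : Type u} [NormedAddCommGroup H] [InnerProductSpace ℂ H] [CompleteSpace H]
  {K : Dh.Frame H} {S : Dh.Theory K} {N : Set V → VonNeumannAlgebra H}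

/-- the hypotheses on the domain -/
theorem hyp_dn {T} (h : Dh.Hyp S T N) : ∃ Q G T' Γ N', ∃ R : Rl S Q S.dom.subtypeₗᵢ G,
    (iso _ R.dr).conjStarAlgEquiv Γ = K.Γ ∧
      (∀ O X, X ∈ N' O ↔ (iso _ R.dr).conjStarAlgEquiv X ∈ N O) ∧
      (∀ m n, Eqv S.dom.subtypeₗᵢ (T m n) (T' m n)) ∧ Dn.Hy Q G T' Γ N' := by
  obtain ⟨Q, G, R⟩ := ex_rl S
  choose T' a x b using fun m n => R.rep (h.1.1 m n).1
  obtain ⟨Γ, g⟩ := p_sur (iso _ R.dr).conjStarAlgEquiv K.Γ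
  obtain ⟨N', n⟩ := ex_dn (iso _ R.dr) N
  have c := iso_coe _ R.dr
  refine ⟨Q, G, T', Γ, N', R, g, n, x, Z.gr.1 R.gr, R.even,
    Z.stress.1 ((R.stress x).1 ⟨h.1, fun m n => b m n (h.1.1 m n)⟩).1, Z.pgen.1 ((R.pgen x).1 h.2),
    h.3.imp (fun ⟨J, v⟩ => ?_) fun u => (N352.K.thm _ S.dom).uni Q ((R.uniq c).1 u),
    .inr ((R.fin.1 h.4).imp Z.mfa.1 Z.fsl.1), Z.net.1 ((R.net c n g).1 h.5),
    h.6.imp (fun k => Z.aff.1 ((R.aff c n).1 k)) fun k => Z.rel.1 ((R.rel c n g).1 k)⟩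
  choose J' a' y b' using fun m => R.rep (v.1 m).1
  exact ⟨J', Z.vir.1 ((R.vir x y).1 ⟨v, fun m => b' m (v.1 m)⟩).1⟩

variable (H) in
/-- **the theorem** -/
theorem main : Dh.Main H where
  conf K S T N h r := by
    obtain ⟨Q, G, T', Γ, N', R, g, n, x, y⟩ := hyp_dn h
    have c := iso_coe _ R.dr
    obtain ⟨t, a, -⟩ := (N352.K.thm _ S.dom).conf Q G T' Γ N' y
      (R.max_dn c n g (r.elim rec_max id))
    exact ⟨_, R.conf_up c x (fun _ _ => up_eqv _ _) (fun m n => Q.bose_fld _ (y.3.1 m n)) (Z.cf a)⟩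
  ext K S T N h := by
    obtain ⟨Q, G, T', Γ, N', R, g, n, x, y⟩ := hyp_dn h
    obtain ⟨s, a, b, E, _, _, P, k, G', e, t, Γ', N'', c, d, m, l, p, u, u', -, z⟩ := N352.K.ext3 y
    obtain ⟨S', R', q, f, w, v⟩ := R.ext_up (iso_coe _ R.dr) n g (Z.ext c)
    choose A o i using fun m n => R.up _ (Q.bose_fld _ (a.1 m n))
    have j := fun m n => up_eqv ((iso _ R.dr).toLinearIsometry.comp k) (e (s m n))
    obtain ⟨M, r⟩ := ex_up (iso _ R'.dr) N''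
    have c' := iso_coe _ R'.dr
    exact ⟨A, ((R.stress i).2 ⟨Z.st a, o⟩).1, (R.same x i).2 b, S', _, fun m n => up _ (t m n), q,
      fun m n => w _ _ (Q.bose_fld _ (a.1 m n)) (i m n),
      ((R'.stress j).2 ⟨Z.stress.2 d, fun m n => f _ (P.bose_fld _ (d.1 m n))⟩).1,
      (R'.pgen j).2 (Z.pgen.2 p), R'.fin.2 ⟨Z.mfa.2 m, Z.fsl.2 l⟩,
      ⟨M, (R'.net c' r ((R'.cg c').2 u.1)).2 (Z.net.2 u), (R'.aff c' r).2 (Z.aff.2 u')⟩,
      fun R a b => have ⟨_, r, x⟩ := v R a b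
        r.conf_up (iso_coe _ r.dr) j (fun _ _ => up_eqv _ _)
          (fun m n => x.mem _ (P.bose_fld _ (d.1 m n)))
          (Z.cf (z _ ⟨x.1, x.2, x.3, x.4⟩ (Z.gr.1 r.gr)))⟩
  cnt _ _ _ := cnt_dn

end

end Vale.Agent.N352.H
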