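import Vale.Agent.N352.H.Base

/-!
# N352, block H: the constructions
-/

set_option linter.all false

open Filter Topology

namespace Vale.Agent.N352.H

open P352.GF
open UniformSpace (Completion)

noncomputable section

variable {H : Type*} [NormedAddCommGroup H] [InnerProductSpace ℂ H] [CompleteSpace H]
  {K : Dh.Frame H} {E : Type*} [NormedAddCommGroup E] [InnerProductSpace ℂ E]

/-- weakly tempered fields are strongly tempered -/
theorem strong (S : Dh.Theory K) {A : Fld H} (s : S.fld A) {v} (m : v ∈ S.dom) :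
    Continuous fun g : Sch => A (ev g) v := by
  have := P352X.EB.ana_row.barr
  have l := fun (f g : Sch) c => S.lin A (ev f) (ev g) c s ⟨f, rfl⟩ ⟨g, rfl⟩ v m
  have z : A (ev 0) v = 0 := by
    have := l 0 0 1
    rw [one_smul, show (fun x => ev 0 x + 1 * ev 0 x) = ev 0 from funext fun _ => by simp [ev]] at this
    exact left_eq_add.1 this
  exact P352.H246.cont_of_weak (Ψ := ⟨⟨fun g => A (ev g) v, fun f g => by
    have := l f g 1
    rwa [one_smul, show (fun x => ev f x + 1 * ev g x) = ev (f + g) from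
      funext fun _ => by simp [ev]] at this⟩, fun c g => by
    have := l 0 g c
    rwa [z, zero_add, show (fun x => ev 0 x + c * ev g x) = ev (c • g) from
      funext fun _ => by simp [ev]] at this⟩) (dense S) (S.cont A s v m)

theorem lor_mul {L L'} (h : IsLor L) (h' : IsLor L') : IsLor fun m => sim 1 L 0 (L' m) :=
  (P352X.EB.Sg.mul ⟨1, L, 0, one_pos, h⟩ ⟨1, L', 0, one_pos, h'⟩).hL

section th

variable {S : Dh.Theory K} {φ : E →ₗᵢ[ℂ] H} {ω : E} {G : E → E}
  {u : ℝ → (Ix → V) → V → E → E} (h : Lk K S.dom φ ω G u)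
include h

theorem Lk.pull {A : Fld H} (s : S.fld A) : ∃ B, Eqv φ A B :=
  ⟨fun f v => Function.invFun φ (A f (φ v)), fun f v t =>
    (Function.invFun_eq (h.sur _ (S.inv.2 A f s t _ (h.mem v)))).symm⟩

/-- the theory on the domain -/
def th : Theory E where
  vac := ω
  fld B := ∃ A, S.fld A ∧ Eqv φ A B
  bose B := ∃ A, Dh.Bose S A ∧ Eqv φ A B
  U := u
  norm_vac := by rw [← φ.norm_map, ← h.vac, K.norm]
  cyclic M a b := by
    have d := S.cyclic (M.map φ.toLinearMap) ⟨⟨_, a, h.vac.symm⟩, by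
      rintro A f s t _ ⟨v, m, rfl⟩
      obtain ⟨B, x⟩ := h.pull s
      exact ⟨_, b B f v ⟨A, s, x⟩ t m, (x f v t).symm⟩⟩
    exact fun v => by
      rw [φ.isometry.isEmbedding.closure_eq_preimage_closure_image]
      exact d _
  lin := by
    rintro B f g c v ⟨A, s, x⟩ a b
    refine φ.injective ?_
    rw [map_add, map_smul, ← x f v a, ← x g v b, ← S.lin A f g c s a b _ (h.mem v)]
    obtain ⟨f, rfl⟩ := a
    obtain ⟨g, rfl⟩ := b
    exact (x _ v ⟨f + c • g, rfl⟩).symm
  cont := by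
    rintro B v ⟨A, s, x⟩
    rw [φ.isometry.isEmbedding.continuous_iff]
    exact (strong S s (h.mem v)).congr fun g => x _ v ⟨g, rfl⟩
  adj := by
    rintro B ⟨A, s, x⟩
    obtain ⟨A', s', y⟩ := S.adj A s
    obtain ⟨B', z⟩ := h.pull s'
    exact ⟨B', ⟨A', s', z⟩, (h.adj x z).1 y⟩
  bose_fld _ := fun ⟨A, s, x⟩ => ⟨A, s.1, x⟩
  loc := by
    rintro B C f g v ⟨A, s, x⟩ ⟨A', s', y⟩ a b c
    refine φ.injective ?_
    rw [← x f _ a, ← y g _ b, ← y g _ b, ← x f _ a]
    exact (S.loc A A' f g s.1 s' a b c _ (h.mem v)).1 s.2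
  U_inner s L a v w hs hL := by
    rw [← φ.inner_map_map, ← h.U _ _ _ _ hs hL, ← h.U _ _ _ _ hs hL, K.unitary _ _ _ _ _ hs hL,
      φ.inner_map_map]
  U_vac s L a hs hL := φ.injective (by rw [← h.U _ _ _ _ hs hL, ← h.vac, K.vac _ _ _ hs hL])
  transl := by
    rintro B a f v ⟨A, s, x⟩ t
    refine φ.injective ?_
    rw [← x f _ t, ← h.U _ _ _ _ one_pos lor1, ← h.U _ _ _ _ one_pos lor1,
      ← x _ _ (t_sim one_pos lor1 a t)]
    exact S.transl A a f s t _ (h.mem v)
  spectrum v := (K.spectrum (φ v)).imp fun ν k => ⟨k.1, k.2.1, fun a => by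
    rw [← φ.inner_map_map, ← h.U _ _ _ _ one_pos lor1]
    exact k.2.2 a⟩

theorem th_rl : Rl S (th h) φ G where
  toLk := h
  up _ b := b
  dn A s := (h.pull s).imp fun _ x => ⟨⟨A, s, x⟩, x⟩
  gr := {
    inv v := φ.injective (by rw [← h.gam, ← h.gam, gam_gam])
    herm v w := by rw [← φ.inner_map_map, ← φ.inner_map_map v, ← h.gam, ← h.gam, gam_inner]
    bos := by
      rintro B f v ⟨A, s, x⟩ t
      simpa using (h.par x).1 s.2 f v t
    split := by
      rintro B ⟨A, s, x⟩
      obtain ⟨C, C', c, c', p, p', e⟩ := S.split A s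
      obtain ⟨X, y⟩ := h.pull c
      obtain ⟨X', y'⟩ := h.pull c'
      exact ⟨X, X', ⟨C, ⟨c, p⟩, y⟩, ⟨⟨C', c', y'⟩, fun f v t => by
        simpa using (h.par y').1 p' f v t⟩, fun f v t => φ.injective (by
          rw [map_add, ← x f v t, ← y f v t, ← y' f v t, e f t _ (h.mem v)])⟩
    anti := by
      rintro B C f g v ⟨⟨A, s, x⟩, p⟩ ⟨⟨A', s', y⟩, q⟩ a b c
      refine φ.injective ?_
      rw [map_neg, ← x f _ a, ← y g _ b, ← y g _ b, ← x f _ a]
      exact (S.loc A A' f g s s' a b c _ (h.mem v)).2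
        ((h.par x).2 fun f v t => by simpa using p f v t)
        ((h.par y).2 fun f v t => by simpa using q f v t)
    GU s L a v hs hL := φ.injective (by
      show φ (u _ _ _ _) = φ (G (u _ _ _ _))
      rw [← h.gam, ← h.U _ _ _ _ hs hL, ← h.U _ _ _ _ hs hL, ← h.gam, K.comm _ _ _ _ hs hL])
    mul s L a s' L' a' hs hs' hL hL' := by
      have k := h.U (s * s') (fun m => sim 1 L 0 (L' m)) (sim s L a a')
      replace k := fun v => k v (mul_pos hs hs') (lor_mul hL hL')
      refine (K.mul s L a s' L' a' hs hs' hL hL').imp (fun e v => φ.injective ?_)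
        fun e => ⟨e.1, e.2.1, fun v => φ.injective ?_⟩
      · show φ (u _ _ _ (u _ _ _ _)) = φ (u _ _ _ _)
        rw [← h.U _ _ _ _ hs hL, ← h.U _ _ _ _ hs' hL', ← k]
        exact e _
      · show φ (u _ _ _ (u _ _ _ _)) = φ (G (u _ _ _ _))
        rw [← h.gam, ← h.U _ _ _ _ hs hL, ← h.U _ _ _ _ hs' hL', ← k]
        exact e.2.2 _ }

end th

open Classical in
/-- every theory comes from a theory on its domain -/
theorem ex_rl (S : Dh.Theory K) : ∃ Q G, Rl S Q S.dom.subtypeₗᵢ G :=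
  ⟨_, _, th_rl (E := S.dom) (φ := S.dom.subtypeₗᵢ) (ω := ⟨_, S.inv.1⟩) (G := fun v => ⟨_, S.gam v v.2⟩)
    (u := fun s L a v => if k : K.U s L a v ∈ S.dom then ⟨_, k⟩ else 0)
    ⟨fun v => v.2, fun w m => ⟨⟨w, m⟩, rfl⟩, rfl, fun _ => rfl, fun s L a v hs hL => by
      rw [dif_pos (S.rep s L a hs hL v v.2)]
      rfl⟩⟩

section sys

variable {P : Theory E} {φ : E →ₗᵢ[ℂ] H} {G : E → E}
  (h : Lk K (LinearMap.range φ.toLinearMap) φ P.vac G P.U) (g : Dz.Gr P G) (d : DenseRange φ)
include h g d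

/-- the theory in the Hilbert space -/
def sys : Dh.Theory K where
  dom := LinearMap.range φ.toLinearMap
  fld A := ∃ B, P.fld B ∧ Eqv φ A B
  inv := ⟨h.vac ▸ h.mem _, fun A f ⟨B, _, x⟩ t => h.all.2 fun v => x f v t ▸ h.mem _⟩
  gam := h.all.2 fun v => h.gam v ▸ h.mem _
  rep s L a hs hL := h.all.2 fun v => h.U s L a v hs hL ▸ h.mem _
  cyclic M m := (d.dense_image φ.continuous (P.cyclic (M.comap φ.toLinearMap)
    (show φ _ ∈ M from h.vac ▸ m.1) fun B f v b t n => show φ _ ∈ M from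
      up_eq φ B f v ▸ m.2 _ f ⟨B, b, up_eqv φ B⟩ t _ n)).mono (by
        rintro _ ⟨v, n, rfl⟩
        exact n)
  lin := by
    rintro A f f' c ⟨B, b, x⟩ a a'
    refine h.all.2 fun v => ?_
    rw [x f v a, x f' v a', ← map_smul, ← map_add, ← P.lin B f f' c v b a a']
    obtain ⟨f, rfl⟩ := a
    obtain ⟨f', rfl⟩ := a'
    exact x _ v ⟨f + c • f', rfl⟩
  cont := by
    rintro A ⟨B, b, x⟩
    exact h.all.2 fun v w _ => continuous_const.inner
      ((φ.continuous.comp (P.cont B v b)).congr fun f => (x _ v ⟨f, rfl⟩).symm)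
  adj := by
    rintro A ⟨B, b, x⟩
    obtain ⟨B', b', y⟩ := P.adj B b
    exact ⟨_, ⟨B', b', up_eqv φ B'⟩, (h.adj x (up_eqv φ B')).2 y⟩
  split := by
    rintro A ⟨B, b, x⟩
    obtain ⟨C, C', c, c', e⟩ := g.split B b
    exact ⟨_, _, ⟨C, P.bose_fld C c, up_eqv φ C⟩, ⟨C', c'.1, up_eqv φ C'⟩,
      (h.par (up_eqv φ C)).2 fun f v t => by rw [one_smul, g.bos C f v c t],
      (h.par (up_eqv φ C')).2 fun f v t => by rw [neg_one_smul, c'.2 f v t],
      fun f t => h.all.2 fun v => by rw [x f v t, up_eq, up_eq, e f v t, map_add]⟩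
  transl := by
    rintro A a f ⟨B, b, x⟩ t
    refine h.all.2 fun v => ?_
    have := x _ v (t_sim one_pos lor1 a t)
    refine (congrArg _ (h.U _ _ _ _ one_pos lor1)).trans ((x f _ t).trans ?_)
    rw [P.transl B a f v b t, ← h.U _ _ _ _ one_pos lor1, ← this]
    rfl
  loc := by
    rintro A A' f f' ⟨B, b, x⟩ ⟨B', b', y⟩ a a' s
    refine h.all.2 fun v => ?_
    rw [y f' v a', x f _ a, x f v a, y f' _ a']
    refine ⟨fun p => ?_, fun p q => ?_⟩
    · obtain ⟨C, c, e⟩ := bose_of g b fun f v t => by simpa using (h.par x).1 p f v t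
      rw [e f _ a, e f _ a, P.loc C B' f f' v c b' a a' s]
    · rw [← map_neg, g.anti B B' f f' v ⟨b, fun f v t => by simpa using (h.par x).1 p f v t⟩
        ⟨b', fun f v t => by simpa using (h.par y).1 q f v t⟩ a a' s]

theorem sys_rl : Rl (sys h g d) P φ G := ⟨h, fun B b => ⟨_, ⟨B, b, up_eqv φ B⟩, up_eqv φ B⟩,
  fun _ a => a, g⟩

theorem sys_up {B} (b : P.fld B) : (sys h g d).fld (up φ B) := ⟨B, b, up_eqv φ B⟩

/-- enlargements -/
theorem enl (R : Dh.Theory K) (e : R.dom = (sys h g d).dom) (a : ∀ A, (sys h g d).fld A → R.fld A) :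
    ∃ R', Rl R R' φ G ∧ Dz.IsEnl P R' :=
  have k : Lk K R.dom φ P.vac G P.U := e ▸ h
  ⟨th k, th_rl k, rfl, rfl, fun B b => ⟨_, a _ (sys_up h g d b), up_eqv φ B⟩, fun B b =>
    ⟨_, ⟨a _ (sys_up h g d (P.bose_fld B b)), (k.par (up_eqv φ B)).2 fun f v t => by
      rw [one_smul, g.bos B f v b t]⟩, up_eqv φ B⟩⟩

end sys

section frame

variable {Q : Theory E} {G : E → E} {Γ : Completion E →L[ℂ] Completion E} (g : Dz.Gr Q G)
  (v : G Q.vac = Q.vac) (x : ∀ v : E, Γ v = (G v : E))
include g v x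

/-- the kinematics of a theory on a domain -/
def frame : Dh.Frame (Completion E) where
  Ω := Dz.om Q
  Γ := Γ
  U := Dz.Ue Q
  norm := (Completion.norm_coe _).trans Q.norm_vac
  inv := P352X.EG.SGx.dext fun v => by
    rw [ContinuousLinearMap.mul_apply, x, x, g.inv]
    rfl
  herm := by
    refine ((ContinuousLinearMap.eq_adjoint_iff _ _).2 fun z w => ?_).symm
    refine Completion.induction_on₂ z w (isClosed_eq (by fun_prop) (by fun_prop)) fun v w => ?_
    rw [x, x, Completion.inner_coe, Completion.inner_coe, g.herm]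
  even := (x _).trans (congrArg _ v)
  unitary s L a v w hs hL := ue_inner hs hL a v w
  vac s L a hs hL := (ue_coe hs hL a _).trans (congrArg _ (Q.U_vac s L a hs hL))
  comm s L a z hs hL := Completion.induction_on z (isClosed_eq
    (Completion.continuous_map.comp Γ.continuous) (Γ.continuous.comp Completion.continuous_map))
    fun w => by
      rw [x]
      exact (ue_coe hs hL a _).trans ((congrArg _ (g.GU s L a w hs hL)).trans
        ((x _).symm.trans (congrArg Γ (ue_coe hs hL a w).symm)))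
  mul s L a s' L' a' hs hs' hL hL' := by
    have k := ue_coe (Q := Q) (mul_pos hs hs') (lor_mul hL hL') (sim s L a a')
    have l := fun w => (congrArg (Dz.Ue Q s L a) (ue_coe (Q := Q) hs' hL' a' w)).trans
      (ue_coe hs hL a _)
    refine (g.mul s L a s' L' a' hs hs' hL hL').imp (fun e z => ?_) fun e => ⟨e.1, e.2.1, fun z => ?_⟩
    · exact Completion.induction_on z (isClosed_eq (Completion.continuous_map.comp
        Completion.continuous_map) Completion.continuous_map) fun w =>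
          (l w).trans ((congrArg _ (e w)).trans (k w).symm)
    · exact Completion.induction_on z (isClosed_eq (Completion.continuous_map.comp
        Completion.continuous_map) (Γ.continuous.comp Completion.continuous_map)) fun w =>
          (l w).trans ((congrArg _ (e.2.2 w)).trans ((x _).symm.trans (congrArg Γ (k w).symm)))
  spectrum z := (P352X.EG.SGx.spec Q z).imp fun ν k => ⟨k.1, k.2.1, fun a =>
    (congrArg _ (P352X.Ug_apply Q one_pos lor1 a z).symm).trans (k.2.2 a)⟩

theorem frame_lk : Lk (frame g v x) (LinearMap.range (Completion.toComplₗᵢ (𝕜 := ℂ)).toLinearMap)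
    Completion.toComplₗᵢ Q.vac G Q.U :=
  ⟨fun v => ⟨v, rfl⟩, fun _ m => m, rfl, x, fun s L a v hs hL => ue_coe hs hL a v⟩

end frame

end

end Vale.Agent.N352.H
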