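import Vale.Agent.N352.H.Cn
import Vale.Agent.N352.H.Mx

/-!
# N352, block H: the witness
-/

set_option linter.all false

namespace Vale.Agent.N352.H

open P352.GF
open UniformSpace (Completion)

/-- **the witness** -/
theorem wit : ∃ (H : Type) (_ : NormedAddCommGroup H) (_ : InnerProductSpace ℂ H)
    (_ : CompleteSpace H), Dh.Wit H := by
  obtain ⟨E, _, _, Q, T, N, J, B, h, r, -, o, v, w, ⟨m, p⟩, a, a', b, ⟨f, t, z⟩, i, g, u, y⟩ :=
    N352.K.wik
  have d : DenseRange (Completion.toComplₗᵢ (𝕜 := ℂ) (E := E)) := Completion.denseRange_coe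
  have q := Z.gr.2 h.1
  have l := frame_lk q h.2 h.7.1
  have R := sys_rl l q d
  have c : ∀ v : E, LinearIsometryEquiv.refl ℂ (Completion E) v =
    Completion.toComplₗᵢ (𝕜 := ℂ) v := fun _ => rfl
  have n : ∀ O X, X ∈ N O ↔ (LinearIsometryEquiv.refl ℂ (Completion E)).conjStarAlgEquiv X ∈ N O :=
    fun _ _ => Iff.rfl
  have e := (R.cg c).2 h.7.1
  have x := fun m n => up_eqv Completion.toComplₗᵢ (T m n)
  have s := fun {A} a => sys_up l q d (Q.bose_fld A a)
  have r' := R.rec_up c n (Z.recn.2 r)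
  have o' := (R.uniq c).2 o
  have k := (R.aff c n).2 (Z.aff.2 a)
  exact ⟨_, _, _, _, _, _, _, _, N, _,
    ⟨((R.stress x).2 ⟨Z.stress.2 h.3, fun m n => s (h.3.1 m n)⟩).1, (R.pgen x).2 (Z.pgen.2 h.4),
      .inr o', R.fin.2 ⟨Z.mfa.2 m, Z.fsl.2 p⟩, (R.net c n e).2 (Z.net.2 h.7), .inl k⟩, r', rec_max r',
    ((R.vir x fun m => up_eqv _ (J m)).2 ⟨Z.vir.2 v, fun m => s (v.1 m)⟩).1, o', R.cnt_up w, k,
    (R.rel c n e).2 (Z.rel.2 a'), R.scalar_up (up_eqv _ B) (s b.1) b,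
    ⟨f, t, fun k => z (Completion.coe_injective E
      ((up_eq Completion.toComplₗᵢ B f _).symm.trans k))⟩, i, g, u, fun k => y
      (Completion.coe_injective E ((R.tr x g _ u).symm.trans k))⟩

end Vale.Agent.N352.H
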