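import Vale.Agent.N352.H.Hd
import Vale.Agent.N352.H.Wt

/-!
# N352, block H: the theorem (`H.main`) and the witness (`H.wit`) in the Hilbert space formulation
-/
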